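import Vale.Agent.P078.Sing.Glue.Joint
import Vale.Agent.P078.Sf.Corner

/-!
# Corners of projections of `A`
-/

open scoped ComplexOrder InnerProductSpace
open Vale.Agent.P078.Sf (lift compress)

noncomputable section

namespace Vale.Agent.P078.Sing

universe u

variable {H : Type u} [NormedAddCommGroup H] [InnerProductSpace ℂ H] [CompleteSpace H]

/-- The vectors fixed by `e`. -/
def fixSpace (e : Op H) : Submodule ℂ H := (1 - e).ker

instance (e : Op H) : CompleteSpace (fixSpace e) :=
  (1 - e).isClosed_ker.completeSpace_coe

omit [CompleteSpace H] in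
lemma mem_fixSpace {e : Op H} {v : H} : v ∈ fixSpace e ↔ e v = v := by
  show (1 - e) v = 0 ↔ _
  rw [sub_apply, one_apply_eq_self, sub_eq_zero, eq_comm]

lemma starProjection_fixSpace {e : Op H} (he : IsStarProjection e) :
    (fixSpace e).starProjection = e := by
  refine ContinuousLinearMap.ext fun v => ?_
  refine Submodule.eq_starProjection_of_mem_of_inner_eq_zero
    (mem_fixSpace.2 (DFunLike.congr_fun he.isIdempotentElem.eq v)) fun w hw => ?_
  rw [inner_sub_left, ← ContinuousLinearMap.adjoint_inner_right,
    ← ContinuousLinearMap.star_eq_adjoint, he.isSelfAdjoint.star_eq, mem_fixSpace.1 hw, sub_self]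

omit [CompleteSpace H] in
lemma compress_add (K : Submodule ℂ H) [CompleteSpace K] (x y : Op H) :
    compress K (x + y) = compress K x + compress K y := by
  ext v
  simp [compress]

omit [CompleteSpace H] in
lemma compress_smul (K : Submodule ℂ H) [CompleteSpace K] (t : ℂ) (x : Op H) :
    compress K (t • x) = t • compress K x := by
  ext v
  simp [compress]

omit [CompleteSpace H] in
lemma compress_sum (K : Submodule ℂ H) [CompleteSpace K] {ι : Type*} (s : Finset ι) (f : ι → Op H) :
    compress K (∑ i ∈ s, f i) = ∑ i ∈ s, compress K (f i) :=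
  map_sum (AddMonoidHom.mk' (compress K) (compress_add K)) f s

omit [CompleteSpace H] in
lemma compress_lift (K : Submodule ℂ H) [CompleteSpace K] (T : Op K) : compress K (lift K T) = T :=
  Sf.lift_injective K (by rw [Sf.lift_compress, Sf.star_mul_mul])

omit [CompleteSpace H] in
lemma compress_one (K : Submodule ℂ H) [CompleteSpace K] : compress K (1 : Op H) = 1 := by
  ext v
  simp [compress]

omit [CompleteSpace H] in
lemma norm_compress_apply_le (K : Submodule ℂ H) [CompleteSpace K] (x : Op H) (v : K) :
    ‖compress K x v‖ ≤ ‖x (v : H)‖ :=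
  K.norm_orthogonalProjectionOnto_apply_le _

/-- The positive square root of an element of `M` is in `M`. -/
lemma Masa.exists_sqrt (S : Masa H) {b : Op H} (hb : b ∈ S.M) (h0 : 0 ≤ b) :
    ∃ s ∈ S.M, IsSelfAdjoint s ∧ s * s = b := by
  refine ⟨cfc Real.sqrt b, S.mem_M_iff.2 fun y hy =>
    ((S.commute_of_mem hb hy).symm.cfc_real _).symm.eq, cfc_predicate _ b, ?_⟩
  rw [← cfc_mul Real.sqrt Real.sqrt b (by fun_prop) (by fun_prop)]
  conv_rhs => rw [← cfc_id' ℝ b h0.isSelfAdjoint]
  exact cfc_congr fun z hz => Real.mul_self_sqrt (spectrum_nonneg_of_nonneg h0 hz)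

namespace IsNormalCentral

variable {S : Masa H} {f : Op H →ₗ[ℂ] ℂ}

lemma nonneg (hf : IsNormalCentral S f) {b : Op H} (hb : b ∈ S.M) (h0 : 0 ≤ b) : 0 ≤ f b := by
  obtain ⟨s, hsM, hss, rfl⟩ := S.exists_sqrt hb h0
  simpa [hss.star_eq] using hf.pos s hsM

lemma re_mono (hf : IsNormalCentral S f) {a b : Op H} (ha : a ∈ S.M) (hb : b ∈ S.M) (h : a ≤ b) :
    (f a).re ≤ (f b).re := by
  have := (Complex.nonneg_iff.1 (hf.nonneg (sub_mem hb ha) (sub_nonneg.2 h))).1
  rw [map_sub, Complex.sub_re] at this
  linarith

lemma eq_zero_of_re (hf : IsNormalCentral S f) {b : Op H} (hb : b ∈ S.M) (h0 : 0 ≤ b)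
    (h : (f b).re = 0) : f b = 0 :=
  Complex.ext h (Complex.nonneg_iff.1 (hf.nonneg hb h0)).2.symm

/-- A functional vanishing at `1` vanishes on `M`. -/
lemma eq_zero_of_one (hf : IsNormalCentral S f) (h1 : f 1 = 0) : ∀ y ∈ S.M, f y = 0 := by
  have hsa : ∀ y ∈ S.M, IsSelfAdjoint y → f y = 0 := by
    intro y hy hys
    set t : ℝ := ‖y‖
    have hM : t • (1 : Op H) ∈ S.M := smul_mem_M _ (one_mem _)
    have hl : y ≤ t • (1 : Op H) := by
      rw [← Algebra.algebraMap_eq_smul_one]; exact hys.le_algebraMap_norm_self
    have hu : -(t • (1 : Op H)) ≤ y := by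
      rw [← Algebra.algebraMap_eq_smul_one]; exact hys.neg_algebraMap_norm_le_self
    have a := hf.nonneg (sub_mem hM hy) (sub_nonneg.2 hl)
    have b := hf.nonneg (add_mem hM hy) (neg_le_iff_add_nonneg'.1 hu)
    rw [map_sub, ← Complex.coe_smul, map_smul, h1, smul_zero, zero_sub, neg_nonneg] at a
    rw [map_add, ← Complex.coe_smul, map_smul, h1, smul_zero, zero_add] at b
    exact le_antisymm a b
  intro y hy
  have h2 := hsa _ (add_mem hy (star_mem hy)) (IsSelfAdjoint.add_star_self y)
  have h3 := hsa _ (S.M.toStarSubalgebra.smul_mem (sub_mem hy (star_mem hy)) Complex.I) (by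
    rw [IsSelfAdjoint, star_smul, star_sub, star_star, Complex.star_def, Complex.conj_I]
    module)
  rw [map_smul, smul_eq_zero, or_iff_right Complex.I_ne_zero, map_sub, sub_eq_zero] at h3
  rw [map_add, ← h3, ← two_mul] at h2
  simpa using h2

end IsNormalCentral

namespace Masa

variable (S : Masa H) (K : Submodule ℂ H) [CompleteSpace K]

/-- The algebra of the corner. -/
def cornerM : VonNeumannAlgebra K where
  toStarSubalgebra := StarSubalgebra.centralizer ℂ (compress K '' (S.M.commutant : Set (Op H)))
  centralizer_centralizer' := by simp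

variable {K}

lemma lift_mem_M (hK : K.starProjection ∈ S.M) {T : Op K} (hT : T ∈ S.cornerM K) :
    lift K T ∈ S.M := by
  refine S.mem_M_iff.2 fun y hy => ContinuousLinearMap.ext fun v => ?_
  have hc := DFunLike.congr_fun ((StarSubalgebra.mem_centralizer_iff ℂ).1
    (hT : T ∈ StarSubalgebra.centralizer ℂ _) _ ⟨y, hy, rfl⟩).1 (K.orthogonalProjectionOnto v)
  have he : ∀ z, y (K.starProjection z) = K.starProjection (y z) := fun z =>
    DFunLike.congr_fun (S.commute_of_mem hK hy).eq z
  have hmem : ∀ w : K, y (w : H) ∈ K := fun w => by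
    rw [← Submodule.starProjection_eq_self_iff, ← he,
      Submodule.starProjection_eq_self_iff.2 w.2]
  have h1 : ∀ w : K, (compress K y w : H) = y (w : H) := fun w =>
    Submodule.starProjection_eq_self_iff.2 (hmem w)
  have h2 : compress K y (K.orthogonalProjectionOnto v) = K.orthogonalProjectionOnto (y v) := by
    refine Subtype.ext ((h1 _).trans ?_)
    exact he v
  rw [mul_apply_eq_comp, mul_apply_eq_comp, Sf.lift_apply, Sf.lift_apply, ← h2, ← h1]
  exact congrArg Subtype.val hc

lemma compress_mul_left (hK : K.starProjection ∈ S.A) {a : Op H} (ha : a ∈ S.A) (x : Op H) :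
    compress K (a * x) = compress K a * compress K x ∧
      compress K (x * a) = compress K x * compress K a := by
  have hP : K.starProjection * K.starProjection = K.starProjection :=
    isStarProjection_starProjection.isIdempotentElem.eq
  have hc := S.comm _ hK a ha
  constructor <;> refine Sf.lift_injective K ?_ <;>
    rw [Sf.lift_mul, Sf.lift_compress, Sf.lift_compress, Sf.lift_compress]
  · calc K.starProjection * (a * x) * K.starProjection
        = K.starProjection * a * x * K.starProjection := by simp only [mul_assoc]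
      _ = K.starProjection * a * K.starProjection * x * K.starProjection := by
          rw [hc, mul_assoc a K.starProjection K.starProjection, hP]
      _ = _ := by
          simp only [← mul_assoc]
          rw [mul_assoc (K.starProjection * a) K.starProjection K.starProjection, hP]
  · calc K.starProjection * (x * a) * K.starProjection
        = K.starProjection * x * (a * K.starProjection) := by simp only [mul_assoc]
      _ = K.starProjection * x * (K.starProjection * (a * K.starProjection)) := by
          rw [← mul_assoc K.starProjection a K.starProjection, hc, mul_assoc a K.starProjection K.starProjection, hP]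
      _ = _ := by
          simp only [← mul_assoc]
          rw [mul_assoc (K.starProjection * x) K.starProjection K.starProjection, hP]

lemma compress_mem (hK : K.starProjection ∈ S.M) {x : Op H} (hx : x ∈ S.M) :
    compress K x ∈ S.cornerM K := by
  change compress K x ∈ StarSubalgebra.centralizer ℂ _
  have key : ∀ y ∈ S.M.commutant, compress K y * compress K x = compress K x * compress K y := by
    intro y hy
    refine Sf.lift_injective K ?_
    rw [Sf.lift_mul, Sf.lift_mul, Sf.lift_compress, Sf.lift_compress]
    have h1 : Commute y (K.starProjection * x * K.starProjection) :=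
      S.commute_of_mem (mul_mem (mul_mem hK hx) hK) hy
    have h2 : Commute y K.starProjection := S.commute_of_mem hK hy
    have hP : K.starProjection * K.starProjection = K.starProjection :=
      isStarProjection_starProjection.isIdempotentElem.eq
    have e1 : K.starProjection * y * K.starProjection = y * K.starProjection := by
      rw [← h2.eq, mul_assoc, hP]
    rw [e1]
    calc y * K.starProjection * (K.starProjection * x * K.starProjection)
        = y * (K.starProjection * x * K.starProjection) := by
          simp only [← mul_assoc]; rw [mul_assoc y, hP]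
      _ = K.starProjection * x * K.starProjection * y := h1.eq
      _ = _ := by
          rw [h2.eq]; simp only [← mul_assoc]
          rw [mul_assoc (K.starProjection * x) K.starProjection K.starProjection, hP]
  rw [StarSubalgebra.mem_centralizer_iff]
  rintro _ ⟨y, hy, rfl⟩
  exact ⟨key y hy, by rw [← Sf.compress_star]; exact key _ (star_mem hy)⟩

variable (K)

/-- The MASA of the corner. -/
def cornerA (hK : K.starProjection ∈ S.A) : StarSubalgebra ℂ (Op K) where
  carrier := {T | lift K T ∈ S.A}
  mul_mem' {a b} ha hb := by simpa only [Set.mem_ofPred_eq, Sf.lift_mul] using mul_mem ha hb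
  one_mem' := by simpa only [Set.mem_ofPred_eq, Sf.lift_one] using hK
  add_mem' {a b} ha hb := by simpa only [Set.mem_ofPred_eq, Sf.lift_add] using add_mem ha hb
  zero_mem' := by simpa only [Set.mem_ofPred_eq, Sf.lift_zero] using zero_mem S.A
  algebraMap_mem' c := by
    simpa only [Set.mem_ofPred_eq, Algebra.algebraMap_eq_smul_one, Sf.lift_smul, Sf.lift_one]
      using S.A.smul_mem hK c
  star_mem' {a} ha := by simpa only [Set.mem_ofPred_eq, Sf.lift_star] using star_mem ha

lemma mem_cornerA {hK : K.starProjection ∈ S.A} {T : Op K} :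
    T ∈ S.cornerA K hK ↔ lift K T ∈ S.A := Iff.rfl

variable (hK : K.starProjection ∈ S.A)

/-- The MASA `e A` of `e M e`. -/
def corner : Masa K where
  M := S.cornerM K
  A := S.cornerA K hK
  le a ha := by
    have := S.compress_mem (S.le _ hK) (S.le _ (ha : lift K a ∈ S.A))
    rwa [compress_lift] at this
  comm a ha b hb := Sf.lift_injective K (by
    rw [Sf.lift_mul, Sf.lift_mul, S.comm _ ha _ hb])
  masa x hx hc := S.masa _ (S.lift_mem_M (S.le _ hK) hx) fun a ha => by
    have hca : compress K a ∈ S.cornerA K hK := by
      rw [mem_cornerA, Sf.lift_compress]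
      exact mul_mem (mul_mem hK ha) hK
    have hP : K.starProjection * a * K.starProjection = a * K.starProjection := by
      rw [S.comm _ hK a ha, mul_assoc, isStarProjection_starProjection.isIdempotentElem.eq]
    have h := congrArg (lift K) (hc _ hca)
    rw [Sf.lift_mul, Sf.lift_mul, Sf.lift_compress, hP] at h
    have e1 : lift K x * K.starProjection = lift K x := by
      rw [← Sf.lift_one, ← Sf.lift_mul, mul_one]
    have e2 : K.starProjection * lift K x = lift K x := by
      rw [← Sf.lift_one, ← Sf.lift_mul, one_mul]
    rw [mul_assoc, e2] at h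
    rw [← S.comm _ hK a ha, ← mul_assoc, e1] at h
    exact h

lemma corner_compress_mem {x : Op H} (hx : x ∈ S.M) : compress K x ∈ (S.corner K hK).M :=
  S.compress_mem (S.le _ hK) hx

/-- A corner killed by all normal central functionals has none itself. -/
lemma noNormalCentral_corner
    (h : ∀ f, IsNormalCentral S f → f K.starProjection = 0) : NoNormalCentral (S.corner K hK) := by
  intro g hg
  let f : Op H →ₗ[ℂ] ℂ :=
    { toFun := fun y => g (compress K y)
      map_add' := fun y z => by rw [compress_add, map_add]
      map_smul' := fun t y => by rw [compress_smul, map_smul]; rfl }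
  have hfI : IsNormalCentral S f := by
    refine ⟨fun y hy => ?_, fun a ha y hy => ?_, fun ε hε => ?_⟩
    · refine hg.nonneg (S.compress_mem (S.le _ hK) (mul_mem (star_mem hy) hy)) ?_
      exact ((ContinuousLinearMap.nonneg_iff_isPositive _).2 <|
        ((ContinuousLinearMap.nonneg_iff_isPositive _).1 (star_mul_self_nonneg y)).orthogonalProjectionOnto_comp K)
    · show g (compress K (a * y)) = g (compress K (y * a))
      rw [(S.compress_mul_left hK ha y).1, (S.compress_mul_left hK ha y).2]
      refine hg.central _ ?_ _ (S.compress_mem (S.le _ hK) hy)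
      show lift K (compress K a) ∈ S.A
      rw [Sf.lift_compress]
      exact mul_mem (mul_mem hK ha) hK
    · obtain ⟨F, δ, hδ, hF⟩ := hg.normal ε hε
      refine ⟨F.map ⟨Subtype.val, Subtype.val_injective⟩, δ, hδ, fun y hy h1 hv =>
        hF _ (S.compress_mem (S.le _ hK) hy) ((Sf.norm_compress_le K y).trans h1) fun v hv' =>
          lt_of_le_of_lt (norm_compress_apply_le K y v)
            (hv _ (Finset.mem_map.2 ⟨v, hv', rfl⟩))⟩
  refine hg.eq_zero_of_one ?_
  have h1 : g (compress K K.starProjection) = 0 := h f hfI
  rwa [show compress K K.starProjection = (1 : Op K) from by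
    rw [← Sf.lift_one K, compress_lift]] at h1

/-- A functional faithful on a corner gives a faithful one on it. -/
lemma exists_faithful_corner {f : Op H →ₗ[ℂ] ℂ} (hf : IsNormalCentral S f)
    (hfaith : ∀ y ∈ S.M, y * K.starProjection = y → f (star y * y) = 0 → y = 0) :
    ∃ g, IsNormalCentral (S.corner K hK) g ∧
      ∀ y ∈ (S.corner K hK).M, g (star y * y) = 0 → y = 0 := by
  let g : Op K →ₗ[ℂ] ℂ :=
    { toFun := fun T => f (lift K T)
      map_add' := fun y z => by rw [Sf.lift_add, map_add]
      map_smul' := fun t y => by rw [Sf.lift_smul, map_smul]; rfl }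
  have hg : ∀ T, g T = f (lift K T) := fun T => rfl
  refine ⟨g, ⟨fun T hT => ?_, fun a ha T hT => ?_, fun ε hε => ?_⟩, fun T hT h0 => ?_⟩
  · rw [hg, Sf.lift_mul, Sf.lift_star]
    exact hf.pos _ (S.lift_mem_M (S.le _ hK) hT)
  · rw [hg, hg, Sf.lift_mul, Sf.lift_mul]
    exact hf.central _ ha _ (S.lift_mem_M (S.le _ hK) hT)
  · classical
    obtain ⟨F, δ, hδ, hF⟩ := hf.normal ε hε
    refine ⟨F.image K.orthogonalProjectionOnto, δ, hδ, fun T hT h1 hv =>
      hF _ (S.lift_mem_M (S.le _ hK) hT) ((Sf.norm_lift_le K T).trans h1) fun v hv' => ?_⟩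
    rw [Sf.lift_apply]
    exact hv _ (Finset.mem_image_of_mem _ hv')
  · rw [hg, Sf.lift_mul, Sf.lift_star] at h0
    refine Sf.lift_injective K ((hfaith _ (S.lift_mem_M (S.le _ hK) hT) ?_ h0).trans
      (Sf.lift_zero K).symm)
    rw [← Sf.lift_one, ← Sf.lift_mul, mul_one]

end Masa

end Vale.Agent.P078.Sing
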