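import Vale.Agent.P078.Sing.Glue.Products

/-!
# Paving one element while making a family of products small
-/

open Filter Topology
open scoped ComplexOrder InnerProductSpace
open Vale.Agent.P078.Tr (cut)

noncomputable section

namespace Vale.Agent.P078.Sing

universe u

variable {H : Type u} [NormedAddCommGroup H] [InnerProductSpace ℂ H] [CompleteSpace H]
  {S : Masa H}

/-- Shrinking `q` until two compressed operators are small in norm. -/
theorem exists_good_pair {q R₁ R₂ : Op H} (hq : q ∈ S.M) (hqp : IsStarProjection q)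
    (h1 : R₁ ∈ S.M) (h1s : IsSelfAdjoint R₁) (h2 : R₂ ∈ S.M) (h2s : IsSelfAdjoint R₂)
    {t₁ t₂ : ℝ} (ht1 : 0 < t₁) (ht2 : 0 < t₂) :
    ∃ q' ∈ S.M, IsStarProjection q' ∧ ‖q' * R₁ * q'‖ ≤ t₁ ∧ ‖q' * R₂ * q'‖ ≤ t₂ ∧
      ∀ v, ‖(1 - q') v‖ ≤ ‖(1 - q) v‖ + ‖(q * R₁ * q) v‖ / t₁ + ‖(q * R₂ * q) v‖ / t₂ := by
  set W : Fin 2 → Op H := ![t₁⁻¹ • (q * R₁ * q), t₂⁻¹ • (q * R₂ * q)] with hW
  have hWs : ∀ k, IsSelfAdjoint (W k) := by
    have e : ∀ {R : Op H}, IsSelfAdjoint R → IsSelfAdjoint (q * R * q) := fun {R} hR => by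
      rw [IsSelfAdjoint, star_mul, star_mul, hqp.isSelfAdjoint.star_eq, hR.star_eq, mul_assoc]
    exact Fin.forall_fin_two.2 ⟨(IsSelfAdjoint.all t₁⁻¹).smul (e h1s), (IsSelfAdjoint.all t₂⁻¹).smul (e h2s)⟩
  have hWM : ∀ k, W k ∈ S.M := Fin.forall_fin_two.2
    ⟨smul_mem_M _ (mul_mem (mul_mem hq h1) hq), smul_mem_M _ (mul_mem (mul_mem hq h2) hq)⟩
  have hqW : ∀ k, q * W k = W k ∧ W k * q = W k := by
    have e : ∀ (t : ℝ) (R : Op H), q * (t • (q * R * q)) = t • (q * R * q) ∧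
        t • (q * R * q) * q = t • (q * R * q) := fun t R =>
      ⟨by rw [mul_smul_comm, ← mul_assoc, ← mul_assoc, hqp.isIdempotentElem.eq],
        by rw [smul_mul_assoc, mul_assoc, hqp.isIdempotentElem.eq]⟩
    exact Fin.forall_fin_two.2 ⟨e _ _, e _ _⟩
  set h := ∑ k, star (W k) * W k
  have h0 : 0 ≤ h := Finset.sum_nonneg fun k _ => star_mul_self_nonneg _
  set c := cut h 1
  have hc : IsStarProjection c := Tr.isStarProjection_cut h _
  have hcM : c ∈ S.M := S.cut_mem_M (sum_mem fun k _ => mul_mem (star_mem (hWM k)) (hWM k)) _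
  have hcomm : Commute q c := Tr.commute_cut _ (show Commute h q from
    Commute.sum_left _ _ _ fun k _ => by
      show star (W k) * W k * q = q * (star (W k) * W k)
      rw [(hWs k).star_eq, mul_assoc (W k), (hqW k).2, ← mul_assoc q, (hqW k).1])
  have hqc : Commute q (1 - c) := (Commute.one_right q).sub_right hcomm
  have hsmall : ∀ k, ‖(1 - c) * W k * (1 - c)‖ ≤ 1 := fun k => by
    rw [mul_assoc]
    refine (norm_mul_le _ _).trans ((mul_le_of_le_one_left (norm_nonneg _) hc.one_sub.norm_le).trans ?_)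
    exact (sq_le_sq₀ (norm_nonneg _) zero_le_one).1 ((norm_mul_cut_compl h0
      (Finset.single_le_sum (f := fun j => star (W j) * W j) (fun j _ => star_mul_self_nonneg _)
        (Finset.mem_univ k)) zero_le_one).trans (le_of_eq (one_pow 2).symm))
  have hnorm : ∀ {t : ℝ} {R : Op H}, 0 < t → ‖(1 - c) * (t⁻¹ • (q * R * q)) * (1 - c)‖ ≤ 1 →
      ‖q * (1 - c) * R * (q * (1 - c))‖ ≤ t := fun {t R} ht hle => by
    rw [show q * (1 - c) * R * (q * (1 - c)) = (1 - c) * (q * R * q) * (1 - c) by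
      calc q * (1 - c) * R * (q * (1 - c)) = (1 - c) * q * R * (q * (1 - c)) := by rw [hqc.eq]
        _ = _ := by simp only [mul_assoc]]
    rwa [mul_smul_comm, smul_mul_assoc, norm_smul, Real.norm_of_nonneg (inv_nonneg.2 ht.le),
      inv_mul_le_one₀ ht] at hle
  refine ⟨q * (1 - c), mul_mem hq (sub_mem (one_mem _) hcM), hqp.mul hc.one_sub hqc,
    hnorm ht1 (hsmall 0), hnorm ht2 (hsmall 1), fun v => ?_⟩
  have e : (1 : Op H) - q * (1 - c) = (1 - q) + q * c := by rw [mul_sub, mul_one]; abel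
  rw [e, add_apply, add_assoc]
  refine (norm_add_le _ _).trans (add_le_add le_rfl ?_)
  rw [mul_apply_eq_comp]
  refine (q.le_opNorm _).trans ((mul_le_of_le_one_left (norm_nonneg _) hqp.norm_le).trans ?_)
  refine (sq_le_sq₀ (norm_nonneg _) (by positivity)).1 ?_
  have h3 := re_inner_mono (cut_le h0 zero_le_one) v
  rw [one_smul, ← norm_sq_proj hc] at h3
  refine h3.trans ?_
  simp only [h, Fin.sum_univ_two, add_apply, inner_add_right, map_add, re_inner_star_mul]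
  have a1 : ∀ (t : ℝ) (T : Op H), 0 < t → ‖(t⁻¹ • T) v‖ = ‖T v‖ / t := fun t T ht => by
    rw [smul_apply, norm_smul, Real.norm_of_nonneg (inv_nonneg.2 ht.le), inv_mul_eq_div]
  simp only [hW, Matrix.cons_val_zero, Matrix.cons_val_one, Matrix.cons_val_fin_one,
    a1 _ _ ht1, a1 _ _ ht2]
  nlinarith [mul_nonneg (div_nonneg (norm_nonneg ((q * R₁ * q) v)) ht1.le)
    (div_nonneg (norm_nonneg ((q * R₂ * q) v)) ht2.le)]

/-- The paving error and the products are close to their means at the vectors of `F`. -/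
theorem exists_joint_approx (hS : NoNormalCentral S) {x T : Op H} (hT : S.WLim x T)
    (hTn : ‖T‖ ≤ ‖x‖) {r : ℕ} [NeZero r] (y : Fin r → Op H) (hy : ∀ c, y c ∈ S.M) (F : Finset H)
    {δ ξ : ℝ} (hδ : 0 < δ) (hξ : 0 < ξ) :
    ∃ q ∈ S.M, IsStarProjection q ∧ (∀ v ∈ F, ‖(1 - q) v‖ < δ) ∧
      ∃ (Q : Part S) (col : Fin Q.n → Fin r), ∀ v ∈ F,
        ‖q (((Q.byColour col).pinch x - (1 / (r : ℝ)) • x - (1 - 1 / (r : ℝ)) • T) v)‖ ≤ ξ ∧
        ‖q ((∑ d : Fin r, ((Q.byColour col).p d * y d * (Q.byColour col).p d -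
          Q.meanPart r (y d))) v)‖ ≤ ξ := by
  classical
  have hr1 : (1 : ℝ) ≤ r := by exact_mod_cast NeZero.one_le
  set u : F → H := fun v => v.1
  set B := ∑ v : F, ((2 * ‖x‖ * ‖u v‖) ^ 2 + 1) with hB
  obtain ⟨m₀, hm₀⟩ := exists_nat_gt (B / (ξ / 3) ^ 2)
  set m := m₀ + 1 with hm
  have hmr : (1 : ℝ) ≤ m := by exact_mod_cast (Nat.succ_pos m₀)
  set w := ξ / (3 * (2 * r)) with hw
  have hw0 : 0 < w := by positivity
  set η := w ^ 2 / (30 * r * (m * m)) with hη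
  have hη0 : 0 < η := by positivity
  obtain ⟨q, hqM, hq, hqF, P₀, P, hP, hcell, hpair, hpairy, hrow, hcol, havg⟩ :=
    exists_scheme_joint hS hT hTn y hy u F hδ m hη0
  obtain ⟨Q, col, hR1, hR2⟩ :=
    exists_colour_part_joint P₀ P hP hq u r y hη0 hcell hpair hpairy hrow hcol
  have hwξ : 2 * r * w = ξ / 3 := by rw [hw]; field_simp
  have hrw : w ≤ r * w := le_mul_of_one_le_left hw0.le hr1
  have hsE : Real.sqrt (30 * r * (m * m) * η) = w := by
    rw [hη, mul_div_cancel₀ _ (by positivity : (30 : ℝ) * r * (m * m) ≠ 0),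
      Real.sqrt_sq hw0.le]
  have hsη : Real.sqrt η ≤ w := by
    rw [← hsE]
    refine Real.sqrt_le_sqrt (le_mul_of_one_le_left hη0.le ?_)
    nlinarith [one_le_mul_of_one_le_of_one_le hr1 (one_le_mul_of_one_le_of_one_le hmr hmr)]
  refine ⟨q, hqM, hq, hqF, Q, col, fun v hv => ⟨?_, ?_⟩⟩
  · have hav : (m : ℝ)⁻¹ * ‖q‖ * ‖∑ j, ((P j).pinch x (u ⟨v, hv⟩) - T (u ⟨v, hv⟩))‖ ≤ ξ / 3 := by
      have h1 : ‖∑ j, ((P j).pinch x (u ⟨v, hv⟩) - T (u ⟨v, hv⟩))‖ ^ 2 ≤ m * B :=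
        (havg ⟨v, hv⟩).trans (mul_le_mul_of_nonneg_left
          (Finset.single_le_sum (f := fun v : F => (2 * ‖x‖ * ‖u v‖) ^ 2 + 1)
            (fun w _ => by positivity) (Finset.mem_univ _)) (by linarith))
      have h2 : ‖∑ j, ((P j).pinch x (u ⟨v, hv⟩) - T (u ⟨v, hv⟩))‖ ≤ m * (ξ / 3) := by
        refine (sq_le_sq₀ (norm_nonneg _) (by positivity)).1 (h1.trans ?_)
        rw [mul_pow, sq (m : ℝ), mul_assoc]
        refine mul_le_mul_of_nonneg_left ?_ (by linarith)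
        have h3 : B / (ξ / 3) ^ 2 ≤ m := by rw [hm]; push_cast; linarith
        rwa [div_le_iff₀ (by positivity)] at h3
      calc (m : ℝ)⁻¹ * ‖q‖ * ‖∑ j, ((P j).pinch x (u ⟨v, hv⟩) - T (u ⟨v, hv⟩))‖
          ≤ (m : ℝ)⁻¹ * 1 * (m * (ξ / 3)) := by
            refine mul_le_mul (mul_le_mul_of_nonneg_left hq.norm_le (by positivity)) h2
              (norm_nonneg _) (by positivity)
        _ = ξ / 3 := by field_simp
    refine (hR1 ⟨v, hv⟩ T).trans ?_
    linarith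
  · rw [sum_apply, map_sum]
    refine (norm_sum_le _ _).trans
      ((Finset.sum_le_card_nsmul _ _ (2 * w) fun d _ => ?_).trans ?_)
    · have := hR2 ⟨v, hv⟩ d
      rwa [hsE] at this
    · simp only [Finset.card_univ, Fintype.card_fin, nsmul_eq_mul]
      linarith

/-- Paving of `x` and smallness of `∑ p y p`, with one partition and one projection. -/
theorem so_pavable_joint (hS : NoNormalCentral S) {x : Op H} (hx : x ∈ S.M) (hxs : IsSelfAdjoint x)
    {X : ℝ} (hX : 0 < X) (hxX : ‖x‖ ≤ X) {ε : ℝ} (hε : 0 < ε) {r : ℕ} (hr : 2 / ε ≤ r)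
    (y : Fin r → Op H) (hy : ∀ c, y c ∈ S.M) (hys : ∀ c, IsSelfAdjoint (y c)) {s : ℝ} (hs : 0 < s)
    (hys' : ‖∑ c, y c‖ ≤ s) (F : Finset H) {δ : ℝ} (hδ : 0 < δ) :
    ∃ (p : Fin r → Op H) (a q : Op H),
      (∀ i, p i ∈ S.A ∧ IsStarProjection (p i)) ∧ (∀ i j, i ≠ j → p i * p j = 0) ∧ ∑ i, p i = 1 ∧
      a ∈ S.A ∧ IsSelfAdjoint a ∧ ‖a‖ ≤ ‖x‖ ∧ q ∈ S.M ∧ IsStarProjection q ∧
      (∀ v ∈ F, ‖(1 - q) v‖ < δ) ∧ ‖q * (∑ i, p i * x * p i - a) * q‖ ≤ ε * X ∧
      ‖q * (∑ i, p i * y i * p i) * q‖ ≤ 2 * s / r := by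
  classical
  have hr0 : 0 < r := by
    have h : (0 : ℝ) < r := lt_of_lt_of_le (by positivity) hr
    exact_mod_cast h
  have : NeZero r := ⟨hr0.ne'⟩
  have hr1 : (1 : ℝ) ≤ r := by exact_mod_cast hr0
  obtain ⟨T, hTA, hTs, hTn, hT⟩ := S.exists_wLim hx hxs
  set μ := 1 / (r : ℝ) with hμ
  have hμ0 : 0 < μ := by positivity
  have hμ1 : μ ≤ 1 := (div_le_one (by linarith)).2 hr1
  set t₁ := ε * X / 2 with ht₁
  set t₂ := s * μ with ht₂
  have ht10 : 0 < t₁ := by positivity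
  have ht20 : 0 < t₂ := by positivity
  set K := 3 * X + 2 * (∑ c, ‖y c‖) + s + 1 with hK
  have hK0 : 0 < K := by positivity
  set ξ := δ / 8 * min t₁ t₂ with hξ
  have hξ0 : 0 < ξ := by positivity
  obtain ⟨q, hqM, hq, hqF, Q, col, happ⟩ :=
    exists_joint_approx hS hT hTn y hy F (lt_min (half_pos hδ) (show 0 < ξ / K by positivity)) hξ0
  set R := Q.byColour col
  set c := 1 - μ with hc
  have hc0 : 0 ≤ c := by rw [hc]; linarith
  have hc1 : c ≤ 1 := by rw [hc]; linarith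
  set Z₁ := R.pinch x - μ • x - c • T with hZ₁
  set Z₂ := ∑ d : Fin r, (R.p d * y d * R.p d - Q.meanPart r (y d)) with hZ₂
  have hZ1M : Z₁ ∈ S.M :=
    sub_mem (sub_mem (R.pinch_mem hx) (smul_mem_M _ hx)) (smul_mem_M _ (S.le T hTA))
  have hZ1s : IsSelfAdjoint Z₁ :=
    ((show IsSelfAdjoint (R.pinch x) by rw [IsSelfAdjoint, ← R.pinch_star, hxs.star_eq]).sub
      ((IsSelfAdjoint.all μ).smul hxs)).sub ((IsSelfAdjoint.all c).smul hTs)
  have hmeanM : ∀ d, Q.meanPart r (y d) ∈ S.M := fun d =>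
    add_mem (smul_mem_M _ (hy d)) (smul_mem_M _ (Q.pinch_mem (hy d)))
  have hmeans : ∀ d, IsSelfAdjoint (Q.meanPart r (y d)) := fun d =>
    ((IsSelfAdjoint.all _).smul (hys d)).add ((IsSelfAdjoint.all _).smul
      (by rw [IsSelfAdjoint, ← Q.pinch_star, (hys d).star_eq]))
  have hZ2M : Z₂ ∈ S.M := sum_mem fun d _ =>
    sub_mem (mul_mem (mul_mem (R.mem_M d) (hy d)) (R.mem_M d)) (hmeanM d)
  have hZ2s : IsSelfAdjoint Z₂ := by
    rw [IsSelfAdjoint, hZ₂, star_sum]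
    refine Finset.sum_congr rfl fun d _ => ?_
    refine IsSelfAdjoint.star_eq (IsSelfAdjoint.sub ?_ (hmeans d))
    rw [IsSelfAdjoint, star_mul, star_mul, (R.proj d).isSelfAdjoint.star_eq, (hys d).star_eq, mul_assoc]
  have hTn' : ‖c • T‖ ≤ ‖x‖ := by
    rw [norm_smul, Real.norm_of_nonneg hc0]
    exact (mul_le_of_le_one_left (norm_nonneg _) hc1).trans hTn
  have hZ1n : ‖Z₁‖ ≤ K := by
    refine (norm_sub_le _ _).trans ((add_le_add (norm_sub_le _ _) hTn').trans ?_)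
    rw [norm_smul, Real.norm_of_nonneg hμ0.le]
    have := R.norm_pinch_le x
    have := mul_le_of_le_one_left (norm_nonneg x) hμ1
    have : 0 ≤ ∑ c, ‖y c‖ := by positivity
    linarith
  have hmean : ∑ d : Fin r, Q.meanPart r (y d) =
      μ ^ 2 • (∑ d, y d) + (μ * (1 - μ)) • Q.pinch (∑ d, y d) := by
    simp only [Part.meanPart, ← hμ, Finset.sum_add_distrib, ← Finset.smul_sum, Q.pinch_sum]
  have hmeann : ‖∑ d : Fin r, Q.meanPart r (y d)‖ ≤ t₂ := by
    rw [hmean]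
    refine (norm_add_le _ _).trans ?_
    rw [norm_smul, norm_smul, Real.norm_of_nonneg (by positivity),
      Real.norm_of_nonneg (mul_nonneg hμ0.le (by linarith))]
    refine (add_le_add (mul_le_mul_of_nonneg_left hys' (by positivity))
      (mul_le_mul_of_nonneg_left ((Q.norm_pinch_le _).trans hys')
        (mul_nonneg hμ0.le (by linarith)))).trans (le_of_eq ?_)
    rw [ht₂]; ring
  have hZ2n : ‖Z₂‖ ≤ K := by
    rw [hZ₂, Finset.sum_sub_distrib]
    refine (norm_sub_le _ _).trans ((add_le_add (norm_sum_le _ _) hmeann).trans ?_)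
    have h1 : ∀ d : Fin r, ‖R.p d * y d * R.p d‖ ≤ ‖y d‖ := fun d =>
      (norm_mul_le _ _).trans ((mul_le_of_le_one_right (norm_nonneg _) (R.proj d).norm_le).trans
        ((norm_mul_le _ _).trans (mul_le_of_le_one_left (norm_nonneg _) (R.proj d).norm_le)))
    have h2 : ∑ d : Fin r, ‖R.p d * y d * R.p d‖ ≤ ∑ d, ‖y d‖ := Finset.sum_le_sum fun d _ => h1 d
    have h3 : t₂ ≤ s := mul_le_of_le_one_right hs.le hμ1
    have : 0 ≤ ∑ c, ‖y c‖ := by positivity
    linarith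
  obtain ⟨q', hq'M, hq', hq'1, hq'2, hq'v⟩ := exists_good_pair hqM hq hZ1M hZ1s hZ2M hZ2s ht10 ht20
  refine ⟨R.p, c • T, q', fun i => ⟨R.mem i, R.proj i⟩, fun i j h => R.orth i j h, R.sum_eq,
    by rw [← Complex.coe_smul]; exact S.A.smul_mem hTA _, (IsSelfAdjoint.all c).smul hTs, hTn',
    hq'M, hq', fun v hv => ?_, ?_, ?_⟩
  · have hd := hqF v hv
    have hd1 : ‖(1 - q) v‖ < δ / 2 := lt_of_lt_of_le hd (min_le_left _ _)
    have hd2 : K * ‖(1 - q) v‖ ≤ ξ := by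
      have := hd.le.trans (min_le_right _ _)
      rw [le_div_iff₀ hK0] at this
      linarith
    have key : ∀ Z : Op H, ‖Z‖ ≤ K → ‖q (Z v)‖ ≤ ξ → ‖(q * Z * q) v‖ ≤ 2 * ξ := fun Z hZn hZv => by
      have e : (q * Z * q) v = q (Z v) - q (Z ((1 - q) v)) := by
        simp only [mul_apply_eq_comp, sub_apply, one_apply_eq_self, map_sub]
        abel
      rw [e]
      refine (norm_sub_le _ _).trans ?_
      have h1 : ‖q (Z ((1 - q) v))‖ ≤ K * ‖(1 - q) v‖ :=
        (q.le_opNorm _).trans ((mul_le_of_le_one_left (norm_nonneg _) hq.norm_le).trans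
          ((Z.le_opNorm _).trans (mul_le_mul_of_nonneg_right hZn (norm_nonneg _))))
      linarith
    obtain ⟨v1, v2⟩ := happ v hv
    refine lt_of_le_of_lt (hq'v v) ?_
    have hsmall : ∀ {t : ℝ}, 0 < t → min t₁ t₂ ≤ t → ∀ a, a ≤ 2 * ξ → a / t ≤ δ / 4 := by
      intro t ht hle a ha
      rw [div_le_iff₀ ht]
      refine ha.trans ?_
      rw [hξ, show 2 * (δ / 8 * min t₁ t₂) = δ / 4 * min t₁ t₂ by ring]
      exact mul_le_mul_of_nonneg_left hle (div_nonneg hδ.le (by norm_num))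
    refine lt_of_le_of_lt (add_le_add_three le_rfl (hsmall ht10 (min_le_left _ _) _ (key Z₁ hZ1n v1))
      (hsmall ht20 (min_le_right _ _) _ (key Z₂ hZ2n v2))) ?_
    linarith only [hd1]
  · show ‖q' * (R.pinch x - c • T) * q'‖ ≤ _
    rw [show R.pinch x - c • T = Z₁ + μ • x by rw [hZ₁]; abel, mul_add, add_mul]
    refine (norm_add_le _ _).trans ?_
    have h1 : ‖q' * (μ • x) * q'‖ ≤ ε / 2 * X := by
      refine (norm_mul_le _ _).trans ((mul_le_of_le_one_right (norm_nonneg _) hq'.norm_le).trans ?_)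
      refine (norm_mul_le _ _).trans ((mul_le_of_le_one_left (norm_nonneg _) hq'.norm_le).trans ?_)
      rw [norm_smul, Real.norm_of_nonneg hμ0.le]
      refine mul_le_mul ?_ hxX (norm_nonneg _) (by positivity)
      rw [hμ, div_le_div_iff₀ (by positivity) two_pos]
      rw [div_le_iff₀ hε] at hr
      linarith
    linarith
  · rw [show ∑ i : Fin r, R.p i * y i * R.p i = Z₂ + ∑ d : Fin r, Q.meanPart r (y d) by
      rw [hZ₂, Finset.sum_sub_distrib, sub_add_cancel], mul_add, add_mul]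
    refine (norm_add_le _ _).trans ?_
    have h1 : ‖q' * (∑ d : Fin r, Q.meanPart r (y d)) * q'‖ ≤ t₂ :=
      (norm_mul_le _ _).trans ((mul_le_of_le_one_right (norm_nonneg _) hq'.norm_le).trans
        ((norm_mul_le _ _).trans ((mul_le_of_le_one_left (norm_nonneg _) hq'.norm_le).trans hmeann)))
    rw [show 2 * s / (r : ℝ) = t₂ + t₂ by rw [ht₂, hμ]; ring]
    linarith

end Vale.Agent.P078.Sing
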