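import Vale.Agent.P078.Sing.Glue.Scheme

/-!
# Random colours for products `p y p`
-/

open Filter Topology
open scoped ComplexOrder InnerProductSpace

noncomputable section

namespace Vale.Agent.P078.Sing

universe u

/-- Vectors with coefficients uncorrelated up to an involution. -/
lemma sum_norm_sq_orth {V Ω P : Type*} [NormedAddCommGroup V] [InnerProductSpace ℂ V] [Fintype Ω]
    [Fintype P] (φ : P → Ω → ℝ) {σ : P → P} (hσ : Function.Involutive σ)
    (hφ : ∀ p ω, |φ p ω| ≤ 1) (h0 : ∀ p q, q ≠ p → q ≠ σ p → ∑ ω, φ p ω * φ q ω = 0) (w : P → V) :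
    ∑ ω, ‖∑ p, φ p ω • w p‖ ^ 2 ≤ 2 * (Fintype.card Ω : ℝ) * ∑ p, ‖w p‖ ^ 2 := by
  classical
  set N : ℝ := (Fintype.card Ω : ℝ)
  have hN : 0 ≤ N := Nat.cast_nonneg _
  have hG : ∀ p q, |∑ ω, φ p ω * φ q ω| ≤ N := fun p q => by
    refine (Finset.abs_sum_le_sum_abs _ _).trans
      ((Finset.sum_le_card_nsmul _ _ 1 fun ω _ => ?_).trans (by simp [N]))
    rw [abs_mul]
    exact mul_le_one₀ (hφ p ω) (abs_nonneg _) (hφ q ω)
  have hterm : ∀ p q, RCLike.re ⟪w p, w q⟫_ℂ * ∑ ω, φ p ω * φ q ω ≤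
      (if q = p then N * ‖w p‖ ^ 2 else 0) +
        (if q = σ p then N * ((‖w p‖ ^ 2 + ‖w (σ p)‖ ^ 2) / 2) else 0) := by
    intro p q
    have hnn : 0 ≤ N * ((‖w p‖ ^ 2 + ‖w (σ p)‖ ^ 2) / 2) := by positivity
    by_cases h1 : q = p
    · subst h1
      rw [inner_self_eq_norm_sq, if_pos rfl]
      split <;> nlinarith [(abs_le.1 (hG q q)).2, sq_nonneg ‖w q‖]
    by_cases h2 : q = σ p
    · subst h2
      rw [if_neg h1, if_pos rfl, zero_add]
      refine (le_abs_self _).trans ?_
      rw [abs_mul]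
      refine (mul_le_mul_of_nonneg_left (hG _ _) (abs_nonneg _)).trans ?_
      rw [mul_comm N]
      refine mul_le_mul_of_nonneg_right
        ((RCLike.abs_re_le_norm _).trans ((norm_inner_le_norm _ _).trans ?_)) hN
      nlinarith [sq_nonneg (‖w p‖ - ‖w (σ p)‖)]
    rw [if_neg h1, if_neg h2, h0 p q h1 h2, mul_zero, zero_add]
  have e : ∀ ω, ‖∑ p, φ p ω • w p‖ ^ 2 =
      ∑ p, ∑ q, RCLike.re ⟪w p, w q⟫_ℂ * (φ p ω * φ q ω) := fun ω => by
    rw [← inner_self_eq_norm_sq (𝕜 := ℂ), sum_inner, map_sum]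
    refine Finset.sum_congr rfl fun p _ => ?_
    rw [inner_sum, map_sum]
    refine Finset.sum_congr rfl fun q _ => ?_
    rw [← Complex.coe_smul, ← Complex.coe_smul, inner_smul_left, inner_smul_right,
      Complex.conj_ofReal, ← mul_assoc, ← Complex.ofReal_mul]
    exact (Complex.re_ofReal_mul _ _).trans (mul_comm _ _)
  simp only [e]
  rw [Finset.sum_comm]
  rw [Finset.sum_congr rfl fun p _ => Finset.sum_comm]
  simp only [← Finset.mul_sum]
  refine (Finset.sum_le_sum fun p _ => Finset.sum_le_sum fun q _ => hterm p q).trans (le_of_eq ?_)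
  simp only [Finset.sum_add_distrib, Finset.sum_ite_eq', Finset.mem_univ, if_true]
  have hsw : ∑ p, ‖w (σ p)‖ ^ 2 = ∑ p, ‖w p‖ ^ 2 :=
    Equiv.sum_comp hσ.toPerm (fun p => ‖w p‖ ^ 2)
  rw [← Finset.mul_sum, ← Finset.mul_sum, ← Finset.sum_div, Finset.sum_add_distrib, hsw]
  ring

variable {n r : ℕ}

/-- The centred indicator of the colour `c`. -/
def dev (c : Fin r) (col : Fin n → Fin r) (a : Fin n) : ℝ :=
  (if col a = c then 1 else 0) - 1 / (r : ℝ)

/-- Its product at two places. -/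
def dev2 (c : Fin r) (col : Fin n → Fin r) (p : Fin n × Fin n) : ℝ :=
  if p.1 = p.2 then 0 else dev c col p.1 * dev c col p.2

variable [NeZero r]

lemma abs_dev_le (c : Fin r) (col : Fin n → Fin r) (a : Fin n) : |dev c col a| ≤ 1 := by
  have hr : (1 : ℝ) ≤ r := by exact_mod_cast NeZero.one_le
  have h1 : 0 ≤ 1 / (r : ℝ) := by positivity
  have h2 : 1 / (r : ℝ) ≤ 1 := (div_le_one (by linarith)).2 hr
  simp only [dev]
  split_ifs <;> rw [abs_le] <;> constructor <;> linarith

lemma abs_dev2_le (c : Fin r) (col : Fin n → Fin r) (p : Fin n × Fin n) : |dev2 c col p| ≤ 1 := by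
  simp only [dev2]
  split_ifs
  · simp
  · rw [abs_mul]
    exact mul_le_one₀ (abs_dev_le c col _) (abs_nonneg _) (abs_dev_le c col _)

lemma dev_shift {a b : Fin n} (h : b ≠ a) (c : Fin r) (col : Fin n → Fin r) (s : Fin r) :
    dev c (col + Pi.single a s) b = dev c col b := by
  simp only [dev, Pi.add_apply, Pi.single_eq_of_ne h, add_zero]

lemma sum_dev_mul (c : Fin r) (a : Fin n) (g : (Fin n → Fin r) → ℝ)
    (hg : ∀ col s, g (col + Pi.single a s) = g col) :
    ∑ col : Fin n → Fin r, dev c col a * g col = 0 := by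
  have h1 : ∀ col : Fin n → Fin r, ∑ s : Fin r, dev c (col + Pi.single a s) a = 0 := by
    intro col
    have e : ∀ s, dev c (col + Pi.single a s) a =
        (if s = c - col a then 1 else 0) - 1 / (r : ℝ) := fun s => by
      simp only [dev, Pi.add_apply, Pi.single_eq_same, eq_sub_iff_add_eq']
    rw [Finset.sum_congr rfl fun s _ => e s, Finset.sum_sub_distrib, Finset.sum_ite_eq',
      if_pos (Finset.mem_univ _), Finset.sum_const, Finset.card_univ, Fintype.card_fin,
      nsmul_eq_mul, mul_one_div, div_self (NeZero.ne (r : ℝ)), sub_self]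
  have key : ∑ _s : Fin r, ∑ col : Fin n → Fin r, dev c col a * g col = 0 := by
    rw [Finset.sum_congr rfl fun s _ => (sum_shift (fun col : Fin n → Fin r =>
      dev c col a * g col) (Pi.single a s)).symm, Finset.sum_comm]
    refine Finset.sum_eq_zero fun col _ => ?_
    simp only [hg, ← Finset.sum_mul, h1, zero_mul]
  rw [Finset.sum_const, Finset.card_univ, Fintype.card_fin, nsmul_eq_mul] at key
  exact (mul_eq_zero.1 key).resolve_left (NeZero.ne _)

lemma sum_dev2_mul (c : Fin r) {p q : Fin n × Fin n} (h1 : q ≠ p) (h2 : q ≠ p.swap) :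
    ∑ col : Fin n → Fin r, dev2 c col p * dev2 c col q = 0 := by
  by_cases hp : p.1 = p.2
  · simp [dev2, hp]
  have aux : ∀ a b : Fin n, b ≠ a → q.1 ≠ a → q.2 ≠ a →
      ∑ col : Fin n → Fin r, dev c col a * (dev c col b * dev2 c col q) = 0 := fun a b hb hq1 hq2 =>
    sum_dev_mul c a _ fun col s => by
      simp only [dev2, dev_shift hb, dev_shift hq1, dev_shift hq2]
  by_cases ha : q.1 ≠ p.1 ∧ q.2 ≠ p.1
  · refine Eq.trans (Finset.sum_congr rfl fun col _ => ?_) (aux p.1 p.2 (Ne.symm hp) ha.1 ha.2)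
    rw [dev2, if_neg hp, mul_assoc]
  by_cases hb : q.1 ≠ p.2 ∧ q.2 ≠ p.2
  · refine Eq.trans (Finset.sum_congr rfl fun col _ => ?_) (aux p.2 p.1 hp hb.1 hb.2)
    rw [dev2, if_neg hp]
    ring
  simp only [not_and_or, not_not] at ha hb
  rcases ha with ha | ha <;> rcases hb with hb | hb
  · exact absurd (ha.symm.trans hb) hp
  · exact absurd (Prod.ext ha hb) h1
  · exact absurd (Prod.ext hb ha) h2
  · exact absurd (ha.symm.trans hb) hp

variable {H : Type u} [NormedAddCommGroup H] [InnerProductSpace ℂ H] [CompleteSpace H]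
  {S : Masa H}

namespace Part

/-- The part of `p y p` linear in the centred indicators. -/
def linPart (Q : Part S) (r : ℕ) (y : Op H) (a : Fin Q.n) : Op H :=
  (1 / (r : ℝ)) • (Q.p a * y + y * Q.p a) + (1 - 2 * (1 / (r : ℝ))) • (Q.p a * y * Q.p a)

/-- The mean of `p y p`. -/
def meanPart (Q : Part S) (r : ℕ) (y : Op H) : Op H :=
  (1 / (r : ℝ)) ^ 2 • y + (1 / (r : ℝ) * (1 - 1 / (r : ℝ))) • Q.pinch y

omit [NeZero r] in
/-- `p y p` for a colour projection `p`. -/
lemma byColour_mul_mul (Q : Part S) (col : Fin Q.n → Fin r) (c : Fin r) (y : Op H) :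
    (Q.byColour col).p c * y * (Q.byColour col).p c = Q.meanPart r y +
      ∑ a, dev c col a • Q.linPart r y a +
      ∑ p : Fin Q.n × Fin Q.n, dev2 c col p • (Q.p p.1 * y * Q.p p.2) := by
  set μ := 1 / (r : ℝ) with hμ
  set d := dev c col with hd
  set D := ∑ a, d a • Q.p a with hDdef
  have hp : (Q.byColour col).p c = μ • (1 : Op H) + D := by
    show ∑ i ∈ Finset.univ.filter (fun i => col i = c), Q.p i = _
    rw [← Q.sum_eq, Finset.smul_sum, hDdef, ← Finset.sum_add_distrib, Finset.sum_filter]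
    refine Finset.sum_congr rfl fun a _ => ?_
    rw [← add_smul]
    simp only [hd, dev, ← hμ, add_sub_cancel]
    split_ifs <;> simp
  have hsq : ∀ a, d a * d a = μ * (1 - μ) + (1 - 2 * μ) * d a := fun a => by
    simp only [hd, dev, ← hμ]
    split_ifs <;> ring
  have hDD : D * y * D = (μ * (1 - μ)) • Q.pinch y +
      ∑ a, ((1 - 2 * μ) * d a) • (Q.p a * y * Q.p a) +
      ∑ p : Fin Q.n × Fin Q.n, dev2 c col p • (Q.p p.1 * y * Q.p p.2) := by
    rw [pinch, Finset.smul_sum, ← Finset.sum_add_distrib,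
      show D * y * D = ∑ a, ∑ b, (d a * d b) • (Q.p a * y * Q.p b) by
        rw [hDdef, Finset.sum_mul, Finset.sum_mul_sum]
        refine Finset.sum_congr rfl fun a _ => Finset.sum_congr rfl fun b _ => ?_
        rw [smul_mul_assoc, smul_mul_smul_comm]]
    rw [Fintype.sum_prod_type, ← Finset.sum_add_distrib]
    refine Finset.sum_congr rfl fun a _ => ?_
    rw [← add_smul, ← hsq, ← sub_eq_iff_eq_add']
    simp only [dev2, ite_smul, zero_smul, ← hd]
    rw [← Finset.add_sum_erase _ _ (Finset.mem_univ a), add_sub_cancel_left,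
      ← Finset.add_sum_erase _ (fun b => if a = b then (0 : Op H) else _) (Finset.mem_univ a),
      if_pos rfl, zero_add]
    exact Finset.sum_congr rfl fun b hb => (if_neg (Finset.ne_of_mem_erase hb).symm).symm
  have hlin : μ • (D * y + y * D) = ∑ a, (μ * d a) • (Q.p a * y + y * Q.p a) := by
    simp only [hDdef, Finset.sum_mul, Finset.mul_sum, ← Finset.sum_add_distrib, Finset.smul_sum,
      smul_mul_assoc, mul_smul_comm, ← smul_add, smul_smul]
  rw [hp]
  simp only [add_mul, mul_add, smul_mul_assoc, mul_smul_comm, one_mul, mul_one, smul_add, smul_smul]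
  rw [hDD, meanPart, ← hμ, sq]
  have e : ∑ a, d a • Q.linPart r y a = μ • (D * y + y * D) +
      ∑ a, ((1 - 2 * μ) * d a) • (Q.p a * y * Q.p a) := by
    rw [hlin, ← Finset.sum_add_distrib]
    refine Finset.sum_congr rfl fun a _ => ?_
    simp only [linPart, ← hμ, smul_add, smul_smul, mul_comm (d a)]
  rw [e, smul_add]
  abel

end Part

/-- The colour partition for one element and a family of products. -/
theorem exists_colour_part_joint (P₀ : Part S) {m : ℕ} [NeZero m] (P : Fin m → Part S)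
    (hP : ∀ j, (P j).Refines P₀) {q : Op H} (hq : IsStarProjection q) {x : Op H} {ι : Type*}
    [Fintype ι] (u : ι → H) (r : ℕ) [NeZero r] (y : Fin r → Op H) {η : ℝ} (hη : 0 < η)
    (hcell : ∀ j, (cellFun x u P₀ (P j) q).re < η)
    (hpair : ∀ j l, (pairFun x u (P j) (P l) q).re < η)
    (hpairy : ∀ j l c, (pairFun (y c) u (P j) (P l) q).re < η)
    (hrow : ∀ j, (dotFun (fun k : Fin r × ι => y k.1 (u k.2)) (P j) q).re < η)
    (hcol : ∀ j c, (dotFun u (P j) (star (y c) * q * y c)).re < η) :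
    ∃ (Q : Part S) (col : Fin Q.n → Fin r),
      (∀ i, ∀ T : Op H,
        ‖q (((Q.byColour col).pinch x - (1 / (r : ℝ)) • x - (1 - 1 / (r : ℝ)) • T) (u i))‖ ≤
          Real.sqrt η + (m : ℝ)⁻¹ * ‖q‖ * ‖∑ j, ((P j).pinch x (u i) - T (u i))‖ +
            Real.sqrt (30 * r * (m * m) * η)) ∧
      ∀ (i : ι) (c : Fin r), ‖q (((Q.byColour col).p c * y c * (Q.byColour col).p c - Q.meanPart r (y c)) (u i))‖ ≤
          2 * Real.sqrt (30 * r * (m * m) * η) := by
  classical
  set z : ι → Fin P₀.n → Fin m → H := fun i K j => q (P₀.p K ((P j).pinch x (u i)))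
  obtain ⟨J, hJ⟩ := exists_levels z (M := η) fun j => by
    refine le_trans (le_of_eq ?_) (hcell j).le
    rw [cellFun, vecFun_proj _ hq, Fintype.sum_prod_type]
    rfl
  rw [Fintype.card_fin] at hJ
  set Q := Part.cells P₀ P J
  set N : ℝ := (Fintype.card (Fin Q.n → Fin r) : ℝ)
  have hm1 : (1 : ℝ) ≤ m := by exact_mod_cast NeZero.one_le
  have hr1 : (1 : ℝ) ≤ r := by exact_mod_cast NeZero.one_le
  set M2 : ℝ := m * m * η
  have hpairs : ∀ w : Op H, (∀ j l, (pairFun w u (P j) (P l) q).re < η) →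
      ∑ i, ∑ p : Fin Q.n × Fin Q.n, ‖q (Q.p p.1 (w (Q.p p.2 (u i))))‖ ^ 2 ≤ M2 := by
    intro w hw
    simp only [Fintype.sum_prod_type]
    calc ∑ i, ∑ a, ∑ b, ‖q (Q.p a (w (Q.p b (u i))))‖ ^ 2
        ≤ ∑ i, ∑ a, ∑ l, ∑ b, ‖q (Q.p a (w ((P l).p b (u i))))‖ ^ 2 :=
          Finset.sum_le_sum fun i _ => Finset.sum_le_sum fun a _ =>
            Part.sum_cells_le P₀ P hP J (fun c => ‖q (Q.p a (w (c (u i))))‖ ^ 2)
              (fun c => sq_nonneg _) (by simp)
      _ ≤ ∑ i, ∑ j, ∑ a, ∑ l, ∑ b, ‖q ((P j).p a (w ((P l).p b (u i))))‖ ^ 2 :=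
          Finset.sum_le_sum fun i _ =>
            Part.sum_cells_le P₀ P hP J (fun c => ∑ l, ∑ b, ‖q (c (w ((P l).p b (u i))))‖ ^ 2)
              (fun c => Finset.sum_nonneg fun l _ => Finset.sum_nonneg fun b _ => sq_nonneg _)
              (by simp)
      _ = ∑ j, ∑ l, (pairFun w u (P j) (P l) q).re := by
          simp only [pairFun, vecFun_proj _ hq, Fintype.sum_prod_type, pairVec]
          rw [Finset.sum_comm]
          refine Finset.sum_congr rfl fun j _ => ?_
          conv_rhs => rw [Finset.sum_comm]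
          refine Finset.sum_congr rfl fun i _ => ?_
          rw [Finset.sum_comm]
      _ ≤ ∑ j : Fin m, ∑ l : Fin m, η :=
          Finset.sum_le_sum fun j _ => Finset.sum_le_sum fun l _ => (hw j l).le
      _ = M2 := by simp [M2, mul_assoc]
  have hmη : (m : ℝ) * η ≤ M2 :=
    mul_le_mul_of_nonneg_right (le_mul_of_one_le_right (by linarith) hm1) hη.le
  have hrows : ∀ c, ∑ i, ∑ a, ‖q (Q.p a (y c (u i)))‖ ^ 2 ≤ M2 := fun c => by
    refine le_trans ?_ hmη
    calc ∑ i, ∑ a, ‖q (Q.p a (y c (u i)))‖ ^ 2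
        ≤ ∑ i, ∑ j, ∑ a, ‖q ((P j).p a (y c (u i)))‖ ^ 2 := Finset.sum_le_sum fun i _ =>
          Part.sum_cells_le P₀ P hP J (fun o => ‖q (o (y c (u i)))‖ ^ 2) (fun o => sq_nonneg _)
            (by simp)
      _ ≤ ∑ j, (dotFun (fun k : Fin r × ι => y k.1 (u k.2)) (P j) q).re := by
          rw [Finset.sum_comm]
          refine Finset.sum_le_sum fun j _ => ?_
          simp only [dotFun, vecFun_proj _ hq, Fintype.sum_prod_type]
          exact Finset.single_le_sum
            (f := fun c => ∑ i, ∑ a, ‖q ((P j).p a (y c (u i)))‖ ^ 2)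
            (fun c _ => Finset.sum_nonneg fun i _ => Finset.sum_nonneg fun a _ => sq_nonneg _)
            (Finset.mem_univ c)
      _ ≤ ∑ j : Fin m, η := Finset.sum_le_sum fun j _ => (hrow j).le
      _ = (m : ℝ) * η := by simp
  have hcols : ∀ c, ∑ i, ∑ a, ‖q (y c (Q.p a (u i)))‖ ^ 2 ≤ M2 := fun c => by
    refine le_trans ?_ hmη
    calc ∑ i, ∑ a, ‖q (y c (Q.p a (u i)))‖ ^ 2
        ≤ ∑ i, ∑ j, ∑ a, ‖q (y c ((P j).p a (u i)))‖ ^ 2 := Finset.sum_le_sum fun i _ =>
          Part.sum_cells_le P₀ P hP J (fun o => ‖q (y c (o (u i)))‖ ^ 2) (fun o => sq_nonneg _)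
            (by simp)
      _ = ∑ j, (dotFun u (P j) (star (y c) * q * y c)).re := by
          rw [Finset.sum_comm]
          refine Finset.sum_congr rfl fun j _ => ?_
          simp only [dotFun, vecFun_apply, Fintype.sum_prod_type, Complex.re_sum]
          refine Finset.sum_congr rfl fun i _ => Finset.sum_congr rfl fun a _ => ?_
          have e : star (y c) * q * y c = star (q * y c) * (q * y c) := by
            rw [star_mul, hq.isSelfAdjoint.star_eq, mul_assoc (star (y c)) q (q * y c),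
              ← mul_assoc q q, hq.isIdempotentElem.eq, mul_assoc]
          rw [e]
          exact (re_inner_star_mul (q * y c) _).symm
      _ ≤ ∑ j : Fin m, η := Finset.sum_le_sum fun j _ => (hcol j c).le
      _ = (m : ℝ) * η := by simp
  set X : ι → Fin Q.n × Fin Q.n → H := fun i p => q (Q.p p.1 (x (Q.p p.2 (u i))))
  set Y : Fin r → ι → Fin Q.n × Fin Q.n → H := fun c i p => q (Q.p p.1 (y c (Q.p p.2 (u i))))
  set L : Fin r → ι → Fin Q.n → H := fun c i a => q (Q.linPart r (y c) a (u i))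
  have hLs : ∀ c, ∑ i, ∑ a, ‖L c i a‖ ^ 2 ≤ 9 * M2 := fun c => by
    have hd : ∑ i, ∑ a, ‖Y c i (a, a)‖ ^ 2 ≤ M2 := by
      refine (Finset.sum_le_sum fun i _ => ?_).trans (hpairs (y c) fun j l => hpairy j l c)
      simp only [Fintype.sum_prod_type]
      exact Finset.sum_le_sum fun a _ => Finset.single_le_sum (f := fun b => ‖Y c i (a, b)‖ ^ 2)
        (fun b _ => sq_nonneg _) (Finset.mem_univ a)
    have h : ∀ i a, ‖L c i a‖ ^ 2 ≤
        3 * (‖q (Q.p a (y c (u i)))‖ ^ 2 + ‖q (y c (Q.p a (u i)))‖ ^ 2 + ‖Y c i (a, a)‖ ^ 2) := by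
      intro i a
      set μ := 1 / (r : ℝ)
      have hμ0 : 0 ≤ μ := by positivity
      have hμ1 : μ ≤ 1 := (div_le_one (by linarith)).2 hr1
      have e : L c i a = μ • q (Q.p a (y c (u i))) + μ • q (y c (Q.p a (u i))) +
          (1 - 2 * μ) • Y c i (a, a) := by
        simp only [L, Y, Part.linPart, add_apply, smul_apply, ← Complex.coe_smul, map_add, map_smul,
          mul_apply_eq_comp, smul_add]
        rfl
      have h1 : ‖L c i a‖ ≤
          ‖q (Q.p a (y c (u i)))‖ + ‖q (y c (Q.p a (u i)))‖ + ‖Y c i (a, a)‖ := by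
        rw [e]
        refine (norm_add₃_le).trans (add_le_add (add_le_add ?_ ?_) ?_) <;> rw [norm_smul] <;>
          refine mul_le_of_le_one_left (norm_nonneg _) ?_ <;>
          rw [Real.norm_eq_abs, abs_le] <;> constructor <;> linarith
      refine (pow_le_pow_left₀ (norm_nonneg _) h1 2).trans ?_
      nlinarith [sq_nonneg (‖q (Q.p a (y c (u i)))‖ - ‖q (y c (Q.p a (u i)))‖),
        sq_nonneg (‖q (Q.p a (y c (u i)))‖ - ‖Y c i (a, a)‖),
        sq_nonneg (‖q (y c (Q.p a (u i)))‖ - ‖Y c i (a, a)‖)]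
    refine (Finset.sum_le_sum fun i _ => Finset.sum_le_sum fun a _ => h i a).trans ?_
    simp only [← Finset.mul_sum, Finset.sum_add_distrib]
    linarith [hrows c, hcols c]
  obtain ⟨col, -, hcolb⟩ := Finset.exists_le_of_sum_le
    (f := fun col : Fin Q.n → Fin r => ∑ i, ‖∑ p, coin col p • X i p‖ ^ 2 +
      ∑ c, ∑ i, (‖∑ a, dev c col a • L c i a‖ ^ 2 + ‖∑ p, dev2 c col p • Y c i p‖ ^ 2))
    (g := fun _ => 30 * r * M2) Finset.univ_nonempty (by
      rw [Finset.sum_const, Finset.card_univ, nsmul_eq_mul, Finset.sum_add_distrib]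
      have h1 : ∑ col : Fin Q.n → Fin r, ∑ i, ‖∑ p, coin col p • X i p‖ ^ 2 ≤ 2 * N * M2 := by
        rw [Finset.sum_comm]
        refine (Finset.sum_le_sum fun i _ => sum_norm_sq_orth (fun p col => coin col p)
          (σ := Prod.swap) (fun p => Prod.swap_swap p) (fun p col => abs_coin_le col p)
          (fun p q h1 h2 => sum_coin_mul_eq_zero h1 h2) (X i)).trans ?_
        rw [← Finset.mul_sum]
        exact mul_le_mul_of_nonneg_left (hpairs x hpair) (by positivity)
      have h2 : ∑ col : Fin Q.n → Fin r, ∑ c, ∑ i, (‖∑ a, dev c col a • L c i a‖ ^ 2 +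
          ‖∑ p, dev2 c col p • Y c i p‖ ^ 2) ≤ (r : ℝ) * (20 * N * M2) := by
        rw [Finset.sum_comm]
        refine (Finset.sum_le_card_nsmul _ _ (20 * N * M2) fun c _ => ?_).trans
          (le_of_eq (by simp))
        rw [Finset.sum_comm]
        have a1 : ∀ i, ∑ col : Fin Q.n → Fin r, (‖∑ a, dev c col a • L c i a‖ ^ 2 +
            ‖∑ p, dev2 c col p • Y c i p‖ ^ 2) ≤
            2 * N * (∑ a, ‖L c i a‖ ^ 2) + 2 * N * ∑ p, ‖Y c i p‖ ^ 2 := fun i => by
          rw [Finset.sum_add_distrib]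
          exact add_le_add
            (sum_norm_sq_orth (fun a col => dev c col a) (σ := id) (fun a => rfl)
              (fun a col => abs_dev_le c col a)
              (fun a b hb _ => sum_dev_mul c a _ fun col s => dev_shift hb c col s) (L c i))
            (sum_norm_sq_orth (fun p col => dev2 c col p) (σ := Prod.swap)
              (fun p => Prod.swap_swap p) (fun p col => abs_dev2_le c col p)
              (fun p q h1 h2 => sum_dev2_mul c h1 h2) (Y c i))
        refine (Finset.sum_le_sum fun i _ => a1 i).trans ?_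
        rw [Finset.sum_add_distrib, ← Finset.mul_sum, ← Finset.mul_sum]
        have := mul_le_mul_of_nonneg_left (hLs c) (show (0 : ℝ) ≤ 2 * N by positivity)
        have := mul_le_mul_of_nonneg_left (hpairs (y c) fun j l => hpairy j l c)
          (show (0 : ℝ) ≤ 2 * N by positivity)
        linarith
      have h3 : 0 ≤ N * M2 := by simp only [M2]; positivity
      have h4 : 2 * (N * M2) ≤ 10 * r * (N * M2) :=
        mul_le_mul_of_nonneg_right (by linarith) h3
      linarith)
  have hbig : ∀ {t : ℝ}, t ≤ 30 * r * M2 → t ≤ 30 * r * (m * m) * η := fun {t} h => by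
    simpa [M2, mul_assoc] using h
  have hsecond : 0 ≤ ∑ c, ∑ i, (‖∑ a, dev c col a • L c i a‖ ^ 2 +
      ‖∑ p, dev2 c col p • Y c i p‖ ^ 2) := by positivity
  have hfirst : 0 ≤ ∑ i, ‖∑ p, coin col p • X i p‖ ^ 2 := by positivity
  refine ⟨Q, col, fun i T => ?_, fun i c => ?_⟩
  · set c := 1 - 1 / (r : ℝ) with hc
    have hc0 : 0 ≤ c := by rw [hc, sub_nonneg, div_le_one (by linarith)]; exact hr1
    have hc1 : c ≤ 1 := by rw [hc]; linarith [show (0 : ℝ) ≤ 1 / r by positivity]
    set avg : H := (m : ℝ)⁻¹ • ∑ j, ((P j).pinch x (u i) - T (u i))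
    set D : H := ∑ K, (z i K (J K) - (m : ℝ)⁻¹ • ∑ j, z i K j)
    have hD : q (Q.pinch x (u i) - T (u i)) = D + q avg := by
      have e1 : ∑ K, (m : ℝ)⁻¹ • ∑ j, z i K j = q ((m : ℝ)⁻¹ • ∑ j, (P j).pinch x (u i)) := by
        rw [← Finset.smul_sum, Finset.sum_comm, ← Complex.coe_smul, ← Complex.coe_smul, map_smul,
          map_sum]
        congr 1
        refine Finset.sum_congr rfl fun j _ => ?_
        simp only [z, ← map_sum]
        rw [← sum_apply, P₀.sum_eq, one_apply_eq_self]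
      have e2 : ∑ K, z i K (J K) = q (Q.pinch x (u i)) := by
        rw [Part.cells_pinch P₀ P hP J x, sum_apply, map_sum]
        rfl
      simp only [D, Finset.sum_sub_distrib, e1, e2, avg]
      rw [smul_sub, Finset.sum_const, Finset.card_univ, Fintype.card_fin,
        ← Nat.cast_smul_eq_nsmul ℝ, smul_smul, inv_mul_cancel₀ (NeZero.ne (m : ℝ)), one_smul,
        map_sub, map_sub]
      abel
    have hDn : ‖D‖ ≤ Real.sqrt η := Real.le_sqrt_of_sq_le <| le_trans
      (Finset.single_le_sum (f := fun i => ‖∑ K, (z i K (J K) - (m : ℝ)⁻¹ • ∑ j, z i K j)‖ ^ 2)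
        (fun i _ => sq_nonneg _) (Finset.mem_univ i)) hJ
    have havg : ‖q avg‖ ≤ (m : ℝ)⁻¹ * ‖q‖ * ‖∑ j, ((P j).pinch x (u i) - T (u i))‖ := by
      refine (q.le_opNorm _).trans (le_of_eq ?_)
      rw [norm_smul, Real.norm_of_nonneg (by positivity)]
      ring
    have hO : ‖∑ p : Fin Q.n × Fin Q.n, coin col p • X i p‖ ≤
        Real.sqrt (30 * r * (m * m) * η) :=
      Real.le_sqrt_of_sq_le (hbig ((Finset.single_le_sum
        (f := fun i => ‖∑ p : Fin Q.n × Fin Q.n, coin col p • X i p‖ ^ 2)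
        (fun i _ => sq_nonneg _) (Finset.mem_univ i)).trans (by linarith)))
    have e : q (((Q.byColour col).pinch x - (1 / (r : ℝ)) • x - c • T) (u i)) =
        c • (D + q avg) + ∑ p : Fin Q.n × Fin Q.n, coin col p • X i p := by
      rw [← hD, Q.byColour_pinch col x, show (1 / (r : ℝ)) • x + (1 - 1 / (r : ℝ)) • Q.pinch x +
        (∑ p, coin col p • (Q.p p.1 * x * Q.p p.2)) - (1 / (r : ℝ)) • x - c • T =
        c • (Q.pinch x - T) + ∑ p, coin col p • (Q.p p.1 * x * Q.p p.2) by
          rw [smul_sub, hc]; abel]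
      rw [add_apply, map_add, smul_apply, sub_apply, sum_apply, map_sum, ← Complex.coe_smul,
        map_smul, ← Complex.coe_smul]
      congr 1
      refine Finset.sum_congr rfl fun p _ => ?_
      rw [smul_apply, ← Complex.coe_smul, map_smul, ← Complex.coe_smul]
      rfl
    rw [e]
    refine (norm_add_le _ _).trans (add_le_add ?_ hO)
    rw [norm_smul, Real.norm_of_nonneg hc0]
    exact (mul_le_of_le_one_left (norm_nonneg _) hc1).trans
      ((norm_add_le _ _).trans (add_le_add hDn havg))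
  · have hone : ‖∑ a, dev c col a • L c i a‖ ^ 2 + ‖∑ p, dev2 c col p • Y c i p‖ ^ 2 ≤
        30 * r * M2 := by
      have h1 := Finset.single_le_sum (f := fun i => ‖∑ a, dev c col a • L c i a‖ ^ 2 +
        ‖∑ p, dev2 c col p • Y c i p‖ ^ 2) (fun i _ => by positivity) (Finset.mem_univ i)
      have h2 := Finset.single_le_sum (f := fun c => ∑ i, (‖∑ a, dev c col a • L c i a‖ ^ 2 +
        ‖∑ p, dev2 c col p • Y c i p‖ ^ 2)) (fun c _ => by positivity) (Finset.mem_univ c)
      linarith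
    have e : q (((Q.byColour col).p c * y c * (Q.byColour col).p c - Q.meanPart r (y c)) (u i)) =
        ∑ a, dev c col a • L c i a + ∑ p : Fin Q.n × Fin Q.n, dev2 c col p • Y c i p := by
      rw [Q.byColour_mul_mul col c (y c), add_assoc, add_sub_cancel_left, add_apply, map_add,
        sum_apply, sum_apply, map_sum, map_sum]
      congr 1 <;> refine Finset.sum_congr rfl fun p _ => ?_ <;>
        rw [smul_apply, ← Complex.coe_smul, map_smul, ← Complex.coe_smul] <;> rfl
    rw [e, two_mul]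
    exact (norm_add_le _ _).trans (add_le_add
      (Real.le_sqrt_of_sq_le (hbig (by linarith [sq_nonneg ‖∑ p, dev2 c col p • Y c i p‖])))
      (Real.le_sqrt_of_sq_le (hbig (by linarith [sq_nonneg ‖∑ a, dev c col a • L c i a‖]))))

end Vale.Agent.P078.Sing
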