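import Vale.Agent.P078.Sing.Glue.Support
import Vale.Agent.P078.Sf.Assembly

/-!
# Every MASA paves once MASAs in the centralizer of a faithful normal state do
-/

open scoped ComplexOrder InnerProductSpace
open Vale.Agent.P078.Sf (lift compress)

noncomputable section

namespace Vale.Agent.P078.Sing

universe u

/-- A faithful normal positive functional with `A` in its centralizer. -/
def HasFaithfulCentral {H : Type u} [NormedAddCommGroup H] [InnerProductSpace ℂ H] [CompleteSpace H]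
    (S : Masa H) : Prop :=
  ∃ f, IsNormalCentral S f ∧ ∀ y ∈ S.M, f (star y * y) = 0 → y = 0

/-- `n ≤ C ε⁻²` for MASAs in the centralizer of a faithful normal state. -/
def CentralPavingStatement : Prop :=
  ∃ C : ℝ, ∀ (H : Type u) [NormedAddCommGroup H] [InnerProductSpace ℂ H] [CompleteSpace H]
    (S : Masa H) (x : Op H) (ε : ℝ), HasFaithfulCentral S → x ∈ S.M → IsSelfAdjoint x →
    0 < ε → ε < 1 → ∀ r : ℕ, C / ε ^ 2 ≤ r → SoPavable S x ε r

/-- `n ≤ C ε⁻²` for every MASA of every von Neumann algebra. -/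
def PavingStatement : Prop :=
  ∃ C : ℝ, ∀ (H : Type u) [NormedAddCommGroup H] [InnerProductSpace ℂ H] [CompleteSpace H]
    (S : Masa H) (x : Op H) (ε : ℝ), x ∈ S.M → IsSelfAdjoint x →
    0 < ε → ε < 1 → ∀ r : ℕ, C / ε ^ 2 ≤ r → SoPavable S x ε r

variable {H : Type u} [NormedAddCommGroup H] [InnerProductSpace ℂ H] [CompleteSpace H]

omit [CompleteSpace H] in
lemma ann {u v s t : Op H} (h : u * v = 0) (hs : s * u = s) (ht : v * t = t) : s * t = 0 := by
  rw [← hs, ← ht, mul_assoc, ← mul_assoc u, h, zero_mul, mul_zero]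

section blocks

variable (K : Submodule ℂ H) [CompleteSpace K]

omit [CompleteSpace H] in
lemma lift_mul_proj (T : Op K) :
    lift K T * K.starProjection = lift K T ∧ K.starProjection * lift K T = lift K T := by
  rw [← Sf.lift_one, ← Sf.lift_mul, ← Sf.lift_mul, mul_one, one_mul]
  exact ⟨rfl, rfl⟩

omit [CompleteSpace H] in
lemma lift_compress_mul (a b : Op K) (x : Op H) :
    lift K (a * compress K x * b) = lift K a * x * lift K b := by
  rw [Sf.lift_mul, Sf.lift_mul, Sf.lift_compress]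
  calc lift K a * (K.starProjection * x * K.starProjection) * lift K b
      = lift K a * K.starProjection * x * (K.starProjection * lift K b) := by simp only [mul_assoc]
    _ = _ := by rw [(lift_mul_proj K a).1, (lift_mul_proj K b).2]

omit [CompleteSpace H] in
lemma lift_block {r : ℕ} (p : Fin r → Op K) (a q : Op K) (x : Op H) :
    lift K (q * (∑ i, p i * compress K x * p i - a) * q) =
      lift K q * (∑ i, lift K (p i) * x * lift K (p i) - lift K a) * lift K q := by
  rw [Sf.lift_mul, Sf.lift_mul, Sf.lift_sub, Sf.lift_sum]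
  simp only [lift_compress_mul]

end blocks

lemma fixSpace_mem {S : Masa H} {e : Op H} (he : e ∈ S.A) (hep : IsStarProjection e) :
    (fixSpace e).starProjection ∈ S.A := (starProjection_fixSpace hep).symm ▸ he

/-- Paving one element, given paving of its compressions to the corners with faithful central
functionals. -/
theorem soPavable_of_corners (S : Masa H) {x : Op H} (hx : x ∈ S.M) (hxs : IsSelfAdjoint x)
    {ε : ℝ} (hε : 0 < ε) (hε1 : ε < 1) {r : ℕ} (hr : 32 / ε ^ 2 ≤ r)
    (hC : ∀ e (he : e ∈ S.A) (hep : IsStarProjection e), HasFaithful S e →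
      SoPavable (S.corner (fixSpace e) (fixSpace_mem he hep)) (compress (fixSpace e) x) (ε / 4) r) :
    SoPavable S x ε r := by
  classical
  have hε2 : 0 < ε ^ 2 := pow_pos hε 2
  rw [div_le_iff₀ hε2] at hr
  have hr32 := hr
  have hr0 : (0 : ℝ) < r := by nlinarith [Nat.cast_nonneg (α := ℝ) r]
  have hr0' : 0 < r := by exact_mod_cast hr0
  intro F δ hδ
  rcases eq_or_ne x 0 with rfl | hx0
  · exact ⟨fun i => if i = ⟨0, hr0'⟩ then 1 else 0, 0, 1,
      fun i => by dsimp only; split <;> simp [IsStarProjection.one, IsStarProjection.zero, one_mem, zero_mem],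
      fun i j hij => by dsimp only; split_ifs with h1 h2 <;> simp_all,
      (Finset.sum_eq_single (⟨0, hr0'⟩ : Fin r) (fun i _ hi => if_neg hi)
        (fun h => absurd (Finset.mem_univ _) h)).trans (if_pos rfl), zero_mem _, IsSelfAdjoint.zero _,
      by simp, one_mem _, IsStarProjection.one _, fun v _ => by simpa using hδ, by simp⟩
  set X := ‖x‖
  have hX : 0 < X := norm_pos_iff.2 hx0
  obtain ⟨z, hzA, hzp, hzero, hsplit⟩ := exists_split S
  obtain ⟨e, heA, hep, hez, hefaith, hev⟩ := hsplit F (δ / 3) (by positivity)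
  set d := 1 - e - z with hd
  have hze : z * e = 0 := by rw [S.comm z hzA e heA, hez]
  have hdA : d ∈ S.A := sub_mem (sub_mem (one_mem _) heA) hzA
  have hde : d * e = 0 ∧ e * d = 0 := by
    constructor <;> simp [hd, sub_mul, mul_sub, hep.isIdempotentElem.eq, hze, hez]
  have hdz : d * z = 0 ∧ z * d = 0 := by
    constructor <;> simp [hd, sub_mul, mul_sub, hzp.isIdempotentElem.eq, hze, hez]
  have hdp : IsStarProjection d := by
    refine ⟨?_, ((IsSelfAdjoint.one _).sub hep.isSelfAdjoint).sub hzp.isSelfAdjoint⟩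
    show d * d = d
    conv_lhs => arg 2; rw [hd]
    rw [mul_sub, mul_sub, mul_one, hde.1, hdz.1, sub_zero, sub_zero]
  -- the corners
  set K₀ := fixSpace e
  set K₁ := fixSpace z
  have hK0 : K₀.starProjection = e := starProjection_fixSpace hep
  have hK1 : K₁.starProjection = z := starProjection_fixSpace hzp
  have hK0A : K₀.starProjection ∈ S.A := by rw [hK0]; exact heA
  have hK1A : K₁.starProjection ∈ S.A := by rw [hK1]; exact hzA
  set S₀ := S.corner K₀ hK0A
  set S₁ := S.corner K₁ hK1A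
  have hS₁ : NoNormalCentral S₁ :=
    S.noNormalCentral_corner K₁ hK1A fun f hf => by rw [hK1]; exact hzero f hf
  have hcs : ∀ (K : Submodule ℂ H) [CompleteSpace K], IsSelfAdjoint (compress K x) := fun K _ => by
    rw [IsSelfAdjoint, ← Sf.compress_star, hxs.star_eq]
  obtain ⟨p₀, a₀, q₀, hp0, ho0, hs0, ha0, ha0s, ha0n, hq0M, hq0, hq0F, hq0n⟩ :=
    hC e heA hep hefaith
      (F.image K₀.orthogonalProjectionOnto) (δ / 3) (by positivity)
  set P₀ : Fin r → Op H := fun c => lift K₀ (p₀ c)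
  set y : Fin r → Op K₁ := fun c => compress K₁ (x * P₀ c * x)
  have hP0A : ∀ c, P₀ c ∈ S.A := fun c => (hp0 c).1
  have hP0p : ∀ c, IsStarProjection (P₀ c) := fun c => Sf.isStarProjection_lift K₀ (hp0 c).2
  have hP0s : ∑ c, P₀ c = e := by rw [← Sf.lift_sum, hs0, Sf.lift_one, hK0]
  have hysum : ‖∑ c, y c‖ ≤ X ^ 2 := by
    rw [← compress_sum, ← Finset.sum_mul, ← Finset.mul_sum, hP0s]
    refine (Sf.norm_compress_le _ _).trans ((norm_mul_le _ _).trans ?_)
    rw [sq]
    exact mul_le_mul_of_nonneg_right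
      ((norm_mul_le _ _).trans (mul_le_of_le_one_right (norm_nonneg _) hep.norm_le)) (norm_nonneg _)
  obtain ⟨p₁, a₁, q₁, hp1, ho1, hs1, ha1, ha1s, ha1n, hq1M, hq1, hq1F, hq1n, hq1y⟩ :=
    so_pavable_joint hS₁ (S.corner_compress_mem K₁ hK1A hx) (hcs K₁) hX (Sf.norm_compress_le K₁ x)
      (ε := ε / 4) (by positivity) (r := r) (by
        rw [div_div_eq_mul_div, div_le_iff₀ hε]
        nlinarith)
      y (fun c => S.corner_compress_mem K₁ hK1A
        (mul_mem (mul_mem hx (S.le _ (hP0A c))) hx))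
      (fun c => by
        rw [IsSelfAdjoint, ← Sf.compress_star, star_mul, star_mul, hxs.star_eq,
          (hP0p c).isSelfAdjoint.star_eq, ← mul_assoc])
      (s := X ^ 2) (by positivity) hysum (F.image K₁.orthogonalProjectionOnto)
      (δ := δ / 3) (by positivity)
  set P₁ : Fin r → Op H := fun c => lift K₁ (p₁ c)
  have hP1A : ∀ c, P₁ c ∈ S.A := fun c => (hp1 c).1
  have hP1p : ∀ c, IsStarProjection (P₁ c) := fun c => Sf.isStarProjection_lift K₁ (hp1 c).2
  have hP1s : ∑ c, P₁ c = z := by rw [← Sf.lift_sum, hs1, Sf.lift_one, hK1]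
  have le0 : ∀ T : Op K₀, lift K₀ T * e = lift K₀ T ∧ e * lift K₀ T = lift K₀ T := fun T => by
    have := lift_mul_proj K₀ T
    rwa [hK0] at this
  have le1 : ∀ T : Op K₁, lift K₁ T * z = lift K₁ T ∧ z * lift K₁ T = lift K₁ T := fun T => by
    have := lift_mul_proj K₁ T
    rwa [hK1] at this
  set D : Fin r → Op H := fun c => if c = ⟨0, hr0'⟩ then d else 0 with hD
  have hDd : ∀ c, D c * d = D c ∧ d * D c = D c := fun c => by
    simp only [hD]; split_ifs <;> simp [hdp.isIdempotentElem.eq]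
  set p : Fin r → Op H := fun c => P₀ c + P₁ c + D c
  set Q₀ := lift K₀ q₀
  set Q₁ := lift K₁ q₁
  have hQ0 : IsStarProjection Q₀ := Sf.isStarProjection_lift K₀ hq0
  have hQ1 : IsStarProjection Q₁ := Sf.isStarProjection_lift K₁ hq1
  have hQ01 : Q₀ * Q₁ = 0 := ann hez (le0 _).1 (le1 _).2
  refine ⟨p, lift K₀ a₀ + lift K₁ a₁, Q₀ + Q₁, fun c => ⟨?_, ?_⟩, fun i j hij => ?_, ?_,
    add_mem ha0 ha1, ?_, ?_,
    add_mem (S.lift_mem_M (S.le _ hK0A) hq0M) (S.lift_mem_M (S.le _ hK1A) hq1M),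
    hQ0.add hQ1 hQ01, fun v hv => ?_, ?_⟩
  · refine add_mem (add_mem (hP0A c) (hP1A c)) ?_
    simp only [hD]; split_ifs; exacts [hdA, zero_mem _]
  · refine ((hP0p c).add (hP1p c) (ann hez (le0 _).1 (le1 _).2)).add ?_ ?_
    · simp only [hD]; split_ifs; exacts [hdp, IsStarProjection.zero _]
    · rw [add_mul, ann hde.2 (le0 _).1 (hDd c).2, ann hdz.2 (le1 _).1 (hDd c).2, add_zero]
  · have h00 : P₀ i * P₀ j = 0 := by rw [← Sf.lift_mul, ho0 i j hij, Sf.lift_zero]
    have h11 : P₁ i * P₁ j = 0 := by rw [← Sf.lift_mul, ho1 i j hij, Sf.lift_zero]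
    have hDD : D i * D j = 0 := by
      simp only [hD]
      split_ifs with h1 h2
      · exact absurd (h1.trans h2.symm) hij
      all_goals simp
    simp only [p, add_mul, mul_add, h00, h11, hDD, ann hez (le0 (p₀ i)).1 (le1 (p₁ j)).2,
      ann hze (le1 (p₁ i)).1 (le0 (p₀ j)).2, ann hde.2 (le0 (p₀ i)).1 (hDd j).2,
      ann hde.1 (hDd i).1 (le0 (p₀ j)).2, ann hdz.2 (le1 (p₁ i)).1 (hDd j).2,
      ann hdz.1 (hDd i).1 (le1 (p₁ j)).2, add_zero, P₀, P₁]
  · simp only [p, Finset.sum_add_distrib, hP0s, hP1s, hD, Finset.sum_ite_eq', Finset.mem_univ,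
      if_true, hd]
    abel
  · exact (show IsSelfAdjoint (lift K₀ a₀) by rw [IsSelfAdjoint, ← Sf.lift_star, ha0s.star_eq]).add
      (by rw [IsSelfAdjoint, ← Sf.lift_star, ha1s.star_eq])
  · rw [show lift K₀ a₀ + lift K₁ a₁ = lift K₀ a₀ + z * lift K₁ a₁ by rw [(le1 a₁).2]]
    exact Sf.norm_add_blocks hep hzp hez (le0 _).2 (le0 _).1
      (by rw [(le1 _).1, (le1 _).2])
      ((Sf.norm_lift_le _ _).trans (ha0n.trans (Sf.norm_compress_le _ _)))
      ((Sf.norm_lift_le _ _).trans (ha1n.trans (Sf.norm_compress_le _ _)))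
  · have h0 : ‖(e - Q₀) v‖ < δ / 3 := by
      rw [show e - Q₀ = lift K₀ (1 - q₀) by rw [Sf.lift_sub, Sf.lift_one, hK0], Sf.lift_apply]
      exact hq0F _ (Finset.mem_image_of_mem _ hv)
    have h1 : ‖(z - Q₁) v‖ < δ / 3 := by
      rw [show z - Q₁ = lift K₁ (1 - q₁) by rw [Sf.lift_sub, Sf.lift_one, hK1], Sf.lift_apply]
      exact hq1F _ (Finset.mem_image_of_mem _ hv)
    rw [show (1 : Op H) - (Q₀ + Q₁) = (1 - z - e) + (e - Q₀) + (z - Q₁) by abel, add_apply,
      add_apply]
    exact norm_add₃_le.trans_lt (by linarith [hev v hv])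
  · have hpq0 : ∀ c, p c * Q₀ = P₀ c * Q₀ ∧ Q₀ * p c = Q₀ * P₀ c := fun c => by
      constructor
      · rw [add_mul, add_mul, ann hze (le1 _).1 (le0 _).2, ann hde.1 (hDd c).1 (le0 _).2, add_zero,
          add_zero]
      · rw [mul_add, mul_add, ann hez (le0 _).1 (le1 _).2, ann hde.2 (le0 _).1 (hDd c).2, add_zero,
          add_zero]
    have hpq1 : ∀ c, p c * Q₁ = P₁ c * Q₁ ∧ Q₁ * p c = Q₁ * P₁ c := fun c => by
      constructor
      · rw [add_mul, add_mul, ann hez (le0 _).1 (le1 _).2, ann hdz.1 (hDd c).1 (le1 _).2, zero_add,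
          add_zero]
      · rw [mul_add, mul_add, ann hze (le1 _).1 (le0 _).2, ann hdz.2 (le1 _).1 (hDd c).2, zero_add,
          add_zero]
    rw [Sf.compress_blocks p P₀ P₁ x _ (lift K₀ a₀) (lift K₁ a₁) Q₀ Q₁ hpq0 hpq1
      (by rw [add_mul, ann hze (le1 _).1 (le0 _).2, add_zero])
      (by rw [add_mul, ann hez (le0 _).1 (le1 _).2, zero_add])
      (ann hze (le1 _).1 (le0 _).2)
      (by rw [mul_assoc]; exact ann hez (le0 _).1 (by rw [← mul_assoc, (le1 _).2]))]
    have hA : ‖Q₀ * (∑ c, P₀ c * x * P₀ c - lift K₀ a₀) * Q₀‖ ≤ ε / 4 * X := by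
      rw [← lift_block]
      exact (Sf.norm_lift_le _ _).trans (hq0n.trans
        (mul_le_mul_of_nonneg_left (Sf.norm_compress_le _ _) (by positivity)))
    have hB : ‖Q₁ * (∑ c, P₁ c * x * P₁ c - lift K₁ a₁) * Q₁‖ ≤ ε / 4 * X := by
      rw [← lift_block]
      exact (Sf.norm_lift_le _ _).trans hq1n
    have hG : ‖Q₁ * (∑ c, P₁ c * x * P₀ c) * Q₀‖ ≤ ε / 4 * X := by
      refine (norm_mul_le _ _).trans ((mul_le_of_le_one_right (norm_nonneg _) hQ0.norm_le).trans ?_)
      refine (sq_le_sq₀ (norm_nonneg _) (by positivity)).1 ?_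
      rw [sq, ← CStarRing.norm_self_mul_star]
      have h00 : ∀ i j, i ≠ j → P₀ i * P₀ j = 0 := fun i j hij => by
        rw [← Sf.lift_mul, ho0 i j hij, Sf.lift_zero]
      have e1 : Q₁ * (∑ c, P₁ c * x * P₀ c) * star (Q₁ * (∑ c, P₁ c * x * P₀ c)) =
          lift K₁ (q₁ * (∑ c, p₁ c * y c * p₁ c) * q₁) := by
        rw [Sf.lift_mul, Sf.lift_mul, Sf.lift_sum, star_mul, hQ1.isSelfAdjoint.star_eq, star_sum,
          show Q₁ * (∑ c, P₁ c * x * P₀ c) * ((∑ c, star (P₁ c * x * P₀ c)) * Q₁) =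
            Q₁ * ((∑ c, P₁ c * x * P₀ c) * ∑ c, star (P₁ c * x * P₀ c)) * Q₁ by
            simp only [mul_assoc]]
        congr 2
        rw [Finset.sum_mul_sum]
        refine Finset.sum_congr rfl fun c _ => ?_
        rw [Finset.sum_eq_single c (fun b _ hb => ?_) (fun h => absurd (Finset.mem_univ c) h)]
        · rw [lift_compress_mul, star_mul, star_mul, (hP0p c).isSelfAdjoint.star_eq, hxs.star_eq,
            (hP1p c).isSelfAdjoint.star_eq,
            show P₁ c * x * P₀ c * (P₀ c * (x * P₁ c)) = P₁ c * (x * (P₀ c * P₀ c) * x) * P₁ c by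
              simp only [mul_assoc], (hP0p c).isIdempotentElem.eq]
        · rw [star_mul, (hP0p b).isSelfAdjoint.star_eq, ← mul_assoc, mul_assoc (P₁ c * x),
            h00 c b (Ne.symm hb), mul_zero, zero_mul]
      rw [e1]
      refine (Sf.norm_lift_le _ _).trans (hq1y.trans ?_)
      rw [div_le_iff₀ hr0]
      have := mul_le_mul_of_nonneg_right hr32 (sq_nonneg X)
      nlinarith
    have hG' : ‖Q₀ * (∑ c, P₀ c * x * P₁ c) * Q₁‖ ≤ ε / 4 * X := by
      rw [← norm_star]
      refine le_of_eq_of_le ?_ hG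
      simp only [star_mul, star_sum, hQ0.isSelfAdjoint.star_eq, hQ1.isSelfAdjoint.star_eq,
        hxs.star_eq, (hP0p _).isSelfAdjoint.star_eq, (hP1p _).isSelfAdjoint.star_eq, mul_assoc]
    refine (norm_add₃_le).trans ?_
    refine (add_le_add (add_le_add hA hB) ((norm_add_le _ _).trans (add_le_add hG hG'))).trans
      (le_of_eq ?_)
    ring

/-- Paving one element, given paving in the corners with faithful central functionals. -/
theorem soPavable_of_central {C : ℝ}
    (hC : ∀ (H : Type u) [NormedAddCommGroup H] [InnerProductSpace ℂ H] [CompleteSpace H]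
      (S : Masa H) (x : Op H) (ε : ℝ), HasFaithfulCentral S → x ∈ S.M → IsSelfAdjoint x →
      0 < ε → ε < 1 → ∀ r : ℕ, C / ε ^ 2 ≤ r → SoPavable S x ε r)
    (S : Masa H) {x : Op H} (hx : x ∈ S.M) (hxs : IsSelfAdjoint x) {ε : ℝ} (hε : 0 < ε)
    (hε1 : ε < 1) {r : ℕ} (hr : max 32 (16 * C) / ε ^ 2 ≤ r) : SoPavable S x ε r := by
  refine soPavable_of_corners S hx hxs hε hε1 (le_trans (by gcongr; exact le_max_left _ _) hr)
    fun e he hep hfaith => ?_
  have hK := fixSpace_mem he hep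
  obtain ⟨f, hf, hff⟩ := hfaith
  refine hC _ _ _ (ε / 4) (S.exists_faithful_corner _ hK hf
      (by rw [starProjection_fixSpace hep]; exact hff)) (S.corner_compress_mem _ hK hx)
    (by rw [IsSelfAdjoint, ← Sf.compress_star, hxs.star_eq]) (by positivity) (by linarith) r ?_
  refine le_trans ?_ hr
  rw [div_pow, div_div_eq_mul_div]
  gcongr
  refine le_trans (le_of_eq ?_) (le_max_right _ _)
  ring

/-- Every MASA has `n ≤ C ε⁻²` as soon as those in the centralizer of a faithful normal state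
have. -/
theorem paving_of_central (h : CentralPavingStatement.{u}) : PavingStatement.{u} := by
  obtain ⟨C, hC⟩ := h
  exact ⟨max 32 (16 * C), fun H _ _ _ S x ε hx hxs hε hε1 r hr =>
    soPavable_of_central hC S hx hxs hε hε1 hr⟩

end Vale.Agent.P078.Sing
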