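import Vale.Agent.P078.Sing.Main

/-!
# The scheme for one element and a family of auxiliary operators
-/

open Filter Topology
open scoped ComplexOrder InnerProductSpace
open Vale.Agent.P078.Tr (cut)

noncomputable section

namespace Vale.Agent.P078.Sing

universe u

variable {H : Type u} [NormedAddCommGroup H] [InnerProductSpace ℂ H] [CompleteSpace H]
  {S : Masa H}

/-- A central functional is small on some projection near `1`, also after twisting by finitely
many operators. -/
theorem exists_small_twisted (hS : NoNormalCentral S) {f : Op H →ₚ[ℂ] ℂ} (hc : Central S f)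
    {κ : Type*} [Fintype κ] (y : κ → Op H) (hy : ∀ k, y k ∈ S.M) (F : Finset H) {δ η : ℝ}
    (hδ : 0 < δ) (hη : 0 < η) :
    ∃ q ∈ S.M, IsStarProjection q ∧ (∀ v ∈ F, ‖(1 - q) v‖ < δ) ∧
      ∀ k, (f (star (y k) * q * y k)).re < η := by
  classical
  set t := Real.sqrt (η / (4 * ((f 1).re + 1))) with ht
  have hf1 : 0 ≤ (f 1).re := (Complex.nonneg_iff.1 (map_nonneg f zero_le_one)).1
  have ht2 : t ^ 2 = η / (4 * ((f 1).re + 1)) := Real.sq_sqrt (by positivity)
  have ht0 : 0 < t := Real.sqrt_pos.2 (by positivity)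
  set n : ℝ := (Fintype.card κ : ℝ) + 1
  have hn : 0 < n := by positivity
  obtain ⟨k₀, hkM, hk, hk0, hkF⟩ := exists_killed_dense hS hc
    ((F ×ˢ Finset.univ).image fun p : H × κ => star (y p.2) p.1) (δ := δ * t / n) (by positivity)
  set W : κ → Op H := fun k => (1 - k₀) * star (y k)
  set h := ∑ k, star (W k) * W k
  have h0 : 0 ≤ h := Finset.sum_nonneg fun k _ => star_mul_self_nonneg _
  have hWM : ∀ k, W k ∈ S.M := fun k => mul_mem (sub_mem (one_mem _) hkM) (star_mem (hy k))
  have hhM : h ∈ S.M := sum_mem fun k _ => mul_mem (star_mem (hWM k)) (hWM k)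
  set c := cut h (t ^ 2)
  have hc' : IsStarProjection c := Tr.isStarProjection_cut h _
  refine ⟨1 - c, sub_mem (one_mem _) (S.cut_mem_M hhM _), hc'.one_sub, fun v hv => ?_, fun k => ?_⟩
  · rw [sub_sub_cancel]
    have h1 : ∀ k, ‖W k v‖ ≤ δ * t / n := fun k =>
      (hkF _ (Finset.mem_image.2 ⟨(v, k), Finset.mem_product.2 ⟨hv, Finset.mem_univ _⟩, rfl⟩)).le
    have h2 : t ^ 2 * ‖c v‖ ^ 2 ≤ ∑ k, ‖W k v‖ ^ 2 := by
      have h3 := re_inner_mono (cut_le h0 (sq_nonneg t)) v
      rw [smul_apply, inner_smul_right_eq_smul, RCLike.smul_re, ← norm_sq_proj hc'] at h3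
      refine h3.trans (le_of_eq ?_)
      simp only [h, sum_apply, inner_sum, map_sum, re_inner_star_mul]
    have h4 : ∑ k, ‖W k v‖ ^ 2 ≤ (n - 1) * (δ * t / n) ^ 2 := by
      refine (Finset.sum_le_card_nsmul _ _ _ fun k _ =>
        pow_le_pow_left₀ (norm_nonneg _) (h1 k) 2).trans (le_of_eq ?_)
      simp [n]
    by_contra hlt
    push Not at hlt
    have h5 : t ^ 2 * δ ^ 2 ≤ t ^ 2 * ‖c v‖ ^ 2 :=
      mul_le_mul_of_nonneg_left (pow_le_pow_left₀ hδ.le hlt 2) (sq_nonneg t)
    have h6 : (δ * t / n) ^ 2 * (n * n) = t ^ 2 * δ ^ 2 := by field_simp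
    have h7 : 0 < (δ * t / n) ^ 2 := by positivity
    have h8 : (1 : ℝ) ≤ n := by simp [n]
    nlinarith [mul_pos h7 (show (0 : ℝ) < n * n - n + 1 by nlinarith)]
  · set q := 1 - c
    set Y := y k
    set a := star Y * q * Y
    have hqq : q * q = q := hc'.one_sub.isIdempotentElem.eq
    have hqs : star q = q := hc'.one_sub.isSelfAdjoint.star_eq
    have haY : a = star (q * Y) * (q * Y) := by
      rw [star_mul, hqs, mul_assoc (star Y) q, ← mul_assoc q q Y, hqq, ← mul_assoc]
    have ha0 : 0 ≤ a := haY ▸ star_mul_self_nonneg _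
    set s := k₀ - (1 - k₀)
    have hss : star s = s := by
      simp [s, hk.isSelfAdjoint.star_eq]
    have hle : a ≤ (2 : ℝ) • (k₀ * a * k₀) + (2 : ℝ) • ((1 - k₀) * a * (1 - k₀)) := by
      have e : (2 : ℝ) • (k₀ * a * k₀) + (2 : ℝ) • ((1 - k₀) * a * (1 - k₀)) - a =
          star s * a * s := by
        rw [hss]
        simp only [s, sub_mul, mul_sub, one_mul, mul_one, two_smul]
        abel
      rw [← sub_nonneg, e]
      exact star_left_conjugate_nonneg ha0 s
    have hb1 : (f (k₀ * a * k₀)).re = 0 := by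
      refine le_antisymm ?_ (Complex.nonneg_iff.1 (map_nonneg f ?_)).1
      · have h2 : a ≤ ‖a‖ • (1 : Op H) := by
          rw [← Algebra.algebraMap_eq_smul_one]
          exact IsSelfAdjoint.le_algebraMap_norm_self ha0.isSelfAdjoint
        have h3 := star_left_conjugate_le_conjugate h2 k₀
        rw [hk.isSelfAdjoint.star_eq, mul_smul_comm, mul_one, smul_mul_assoc,
          hk.isIdempotentElem.eq] at h3
        refine (re_apply_mono h3).trans (le_of_eq ?_)
        rw [re_apply_smul, hk0, mul_zero]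
      · simpa [hk.isSelfAdjoint.star_eq] using star_left_conjugate_nonneg ha0 k₀
    have hb2 : (f ((1 - k₀) * a * (1 - k₀))).re ≤ t ^ 2 * (f 1).re := by
      rw [← re_apply_smul]
      refine re_apply_mono ?_
      rw [← Algebra.algebraMap_eq_smul_one]
      have hWq : ‖W k * q‖ ≤ t := (sq_le_sq₀ (norm_nonneg _) ht0.le).1
        (norm_mul_cut_compl h0 (Finset.single_le_sum (f := fun j => star (W j) * W j)
          (fun j _ => star_mul_self_nonneg _) (Finset.mem_univ k)) (sq_nonneg t))
      have e : (1 - k₀) * a * (1 - k₀) = (W k * q) * star (W k * q) := by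
        simp only [W, star_mul, star_star, hqs, hk.one_sub.isSelfAdjoint.star_eq, a]
        conv_lhs => rw [← hqq]
        simp only [mul_assoc]
        rfl
      rw [e]
      refine (CStarAlgebra.norm_le_iff_le_algebraMap _ (sq_nonneg t) (mul_star_self_nonneg _)).1 ?_
      rw [CStarRing.norm_self_mul_star, ← sq]
      exact pow_le_pow_left₀ (norm_nonneg _) hWq 2
    refine lt_of_le_of_lt (re_apply_mono hle) ?_
    rw [map_add, Complex.add_re, re_apply_smul, re_apply_smul, hb1]
    have : 2 * (t ^ 2 * (f 1).re) < η := by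
      rw [ht2, div_mul_eq_mul_div, mul_div_assoc', div_lt_iff₀ (by positivity)]
      nlinarith
    linarith

variable {ι : Type*} [Fintype ι]

/-- The functional of the vectors `p_a u_i`. -/
def dotFun (u : ι → H) (P : Part S) : Op H →ₚ[ℂ] ℂ :=
  vecFun fun k : ι × Fin P.n => P.p k.2 (u k.1)

lemma norm_dotFun_le (u : ι → H) (P : Part S) (y : Op H) :
    ‖dotFun u P y‖ ≤ (∑ i, ‖u i‖ ^ 2) * ‖y‖ := by
  refine (norm_vecFun_le _ y).trans (mul_le_mul_of_nonneg_right (le_of_eq ?_) (norm_nonneg _))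
  simp only [Fintype.sum_prod_type, Part.sum_apply_sq]

lemma dotFun_central (u : ι → H) {P : Part S} {e : Op H} {he : e ∈ S.A} {hp : IsStarProjection e}
    (h : P.Refines (Part.pair S he hp)) (y : Op H) :
    dotFun u P (e * y) = dotFun u P (y * e) := by
  refine vecFun_central hp (fun k => ?_) y
  rcases h.piece k.2 with h1 | h1
  · exact Or.inl (DFunLike.congr_fun h1 _)
  · exact Or.inr (DFunLike.congr_fun h1 _)

/-- Choice of the killing projection and of the partitions, with auxiliary operators. -/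
theorem exists_scheme_joint (hS : NoNormalCentral S) {x T : Op H} (hT : S.WLim x T)
    (hTn : ‖T‖ ≤ ‖x‖) {ρ : Type*} [Fintype ρ] (y : ρ → Op H) (hy : ∀ c, y c ∈ S.M) (u : ι → H)
    (F : Finset H) {δ : ℝ} (hδ : 0 < δ) (m : ℕ) {η : ℝ} (hη : 0 < η) :
    ∃ q ∈ S.M, IsStarProjection q ∧ (∀ v ∈ F, ‖(1 - q) v‖ < δ) ∧
      ∃ (P₀ : Part S) (P : Fin m → Part S), (∀ j, (P j).Refines P₀) ∧
        (∀ j, (cellFun x u P₀ (P j) q).re < η) ∧
        (∀ j l, (pairFun x u (P j) (P l) q).re < η) ∧
        (∀ j l c, (pairFun (y c) u (P j) (P l) q).re < η) ∧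
        (∀ j, (dotFun (fun k : ρ × ι => y k.1 (u k.2)) (P j) q).re < η) ∧
        (∀ j c, (dotFun u (P j) (star (y c) * q * y c)).re < η) ∧
        ∀ i, ‖∑ j, ((P j).pinch x (u i) - T (u i))‖ ^ 2 ≤ m * ((2 * ‖x‖ * ‖u i‖) ^ 2 + 1) := by
  classical
  set X : Option ρ → Op H := fun k => k.elim x y
  choose g₁ hg₁ hg₁b using fun (k : Option ρ) (Q : Part S) =>
    exists_limFun S (fun R => pairFun (X k) u Q R) fun R => norm_pairFun_le (X k) u Q R
  choose g₂ hg₂ hg₂b using fun (k : Option ρ) (Q : Part S) =>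
    exists_limFun S (fun R => pairFun (X k) u R Q) fun R => norm_pairFun_le (X k) u R Q
  choose g₄ hg₄ hg₄b using fun Q : Part S =>
    exists_limFun S (fun R => cellFun x u Q R) fun R => norm_cellFun_le x u Q R
  choose G₁ hG₁ hG₁b using fun k => exists_limFun S (g₁ k) (hg₁b k)
  choose G₂ hG₂ hG₂b using fun k => exists_limFun S (g₂ k) (hg₂b k)
  choose G₃ hG₃ hG₃b using fun k : Option ρ =>
    exists_limFun S (fun R => pairFun (X k) u R R) fun R => norm_pairFun_le (X k) u R R
  obtain ⟨G₄, hG₄, -⟩ := exists_limFun S g₄ hg₄b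
  obtain ⟨G₅, hG₅, -⟩ := exists_limFun S (fun R => dotFun (fun k : ρ × ι => y k.1 (u k.2)) R)
    fun R => norm_dotFun_le _ R
  obtain ⟨G₆, hG₆, -⟩ := exists_limFun S (fun R => dotFun u R) fun R => norm_dotFun_le u R
  have c₁ : ∀ k, Central S (G₁ k) := fun k => Central.of_eventually (hG₁ k) fun e he hp P hP z =>
    tendsto_nhds_unique (hg₁ k P _)
      ((hg₁ k P _).congr fun R => (pairFun_central (X k) u hP z).symm)
  have c₂ : ∀ k, Central S (G₂ k) := fun k => Central.of_eventually (hG₂ k) fun e he hp P hP z =>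
    tendsto_nhds_unique (hg₂ k P _) ((hg₂ k P _).congr'
      ((S.eventually_refines (Part.pair S he hp)).mono fun R hR =>
        (pairFun_central (X k) u hR z).symm))
  have c₃ : ∀ k, Central S (G₃ k) := fun k =>
    Central.of_eventually (hG₃ k) fun e he hp P hP z => pairFun_central (X k) u hP z
  have c₄ : Central S G₄ := Central.of_eventually hG₄ fun e he hp P hP z =>
    tendsto_nhds_unique (hg₄ P _) ((hg₄ P _).congr fun R => (cellFun_central x u hP z).symm)
  have c₅ : Central S G₅ := Central.of_eventually hG₅ fun e he hp P hP z => dotFun_central _ hP z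
  have c₆ : Central S G₆ := Central.of_eventually hG₆ fun e he hp P hP z => dotFun_central _ hP z
  let G : Op H →ₚ[ℂ] ℂ := PositiveLinearMap.mk₀
    (∑ k, ((G₁ k).toLinearMap + (G₂ k).toLinearMap + (G₃ k).toLinearMap) + G₄.toLinearMap +
      G₅.toLinearMap + G₆.toLinearMap) fun z hz => by
      simp only [LinearMap.add_apply, LinearMap.sum_apply]
      exact add_nonneg (add_nonneg (add_nonneg (Finset.sum_nonneg fun k _ =>
        add_nonneg (add_nonneg (map_nonneg (G₁ k) hz) (map_nonneg (G₂ k) hz))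
          (map_nonneg (G₃ k) hz)) (map_nonneg G₄ hz)) (map_nonneg G₅ hz)) (map_nonneg G₆ hz)
  have hG : ∀ z, G z = ∑ k, (G₁ k z + G₂ k z + G₃ k z) + G₄ z + G₅ z + G₆ z := fun z => by
    change (∑ k, ((G₁ k).toLinearMap + (G₂ k).toLinearMap + (G₃ k).toLinearMap) + G₄.toLinearMap +
      G₅.toLinearMap + G₆.toLinearMap) z = _
    simp only [LinearMap.add_apply, LinearMap.sum_apply]
    rfl
  have hc : Central S G := fun e he hp z hz => by
    simp only [hG, c₁ _ e he hp z hz, c₂ _ e he hp z hz, c₃ _ e he hp z hz, c₄ e he hp z hz,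
      c₅ e he hp z hz, c₆ e he hp z hz]
  obtain ⟨q, hqM, hq, hqF, hsmall⟩ := exists_small_twisted hS hc
    (fun k : Option ρ => k.elim 1 y) (fun k => by cases k <;> simp [one_mem, hy]) F hδ hη
  have hq1 : (G q).re < η := by simpa using hsmall none
  have hq2 : ∀ c, (G (star (y c) * q * y c)).re < η := fun c => hsmall (some c)
  have hpos : ∀ (g : Op H →ₚ[ℂ] ℂ) {z : Op H}, 0 ≤ z → 0 ≤ (g z).re := fun g _ hz =>
    (Complex.nonneg_iff.1 (map_nonneg g hz)).1
  have hparts : ∀ {z : Op H}, 0 ≤ z → (G z).re < η →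
      (∀ k, (G₁ k z).re < η ∧ (G₂ k z).re < η ∧ (G₃ k z).re < η) ∧
        (G₄ z).re < η ∧ (G₅ z).re < η ∧ (G₆ z).re < η := by
    intro z hz h
    simp only [hG, Complex.add_re, Complex.re_sum] at h
    have hs : ∀ k, 0 ≤ (G₁ k z).re + (G₂ k z).re + (G₃ k z).re := fun k => by
      linarith [hpos (G₁ k) hz, hpos (G₂ k) hz, hpos (G₃ k) hz]
    have hS0 := Finset.sum_nonneg (s := Finset.univ) fun k _ => hs k
    have := hpos G₄ hz
    have := hpos G₅ hz
    have := hpos G₆ hz
    refine ⟨fun k => ?_, by linarith, by linarith, by linarith⟩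
    have := Finset.single_le_sum (fun k _ => hs k) (Finset.mem_univ k)
    have := hpos (G₁ k) hz
    have := hpos (G₂ k) hz
    have := hpos (G₃ k) hz
    exact ⟨by linarith, by linarith, by linarith⟩
  obtain ⟨h123, h4, h5, -⟩ := hparts hq.nonneg hq1
  have h6 : ∀ c, (G₆ (star (y c) * q * y c)).re < η := fun c =>
    (hparts (star_left_conjugate_nonneg hq.nonneg (y c)) (hq2 c)).2.2.2
  obtain ⟨P₀, hP₀⟩ := (eventually_small hG₄ h4).exists
  refine ⟨q, hqM, hq, hqF, P₀, ?_⟩
  suffices H' : ∀ n, ∃ P : Fin n → Part S, (∀ j, (P j).Refines P₀ ∧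
        (cellFun x u P₀ (P j) q).re < η ∧
        (dotFun (fun k : ρ × ι => y k.1 (u k.2)) (P j) q).re < η ∧
        (∀ c, (dotFun u (P j) (star (y c) * q * y c)).re < η) ∧
        ∀ k, (g₁ k (P j) q).re < η ∧ (g₂ k (P j) q).re < η) ∧
      (∀ j l k, (pairFun (X k) u (P j) (P l) q).re < η) ∧
      ∀ i, ‖∑ j, ((P j).pinch x (u i) - T (u i))‖ ^ 2 ≤ n * ((2 * ‖x‖ * ‖u i‖) ^ 2 + 1) by
    obtain ⟨P, a, b, c⟩ := H' m
    exact ⟨P, fun j => (a j).1, fun j => (a j).2.1, fun j l => b j l none,
      fun j l d => b j l (some d), fun j => (a j).2.2.1, fun j => (a j).2.2.2.1, c⟩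
  intro n
  induction n with
  | zero => exact ⟨Fin.elim0, fun j => j.elim0, fun j => j.elim0, fun i => by simp⟩
  | succ n ih =>
    obtain ⟨P, hP, hpair, hav⟩ := ih
    obtain ⟨Q, hQ0, hQc, hQd, hQt, hQ12, hQ3, hQl, hQr, hQx⟩ :=
      ((S.eventually_refines P₀).and <| (eventually_small (hg₄ P₀) hP₀).and <|
        (eventually_small hG₅ h5).and <|
        (eventually_all.2 fun c => eventually_small hG₆ (h6 c)).and <|
        (eventually_all.2 fun k => (eventually_small (hG₁ k) (h123 k).1).and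
          (eventually_small (hG₂ k) (h123 k).2.1)).and <|
        (eventually_all.2 fun k => eventually_small (hG₃ k) (h123 k).2.2).and <|
        (eventually_all.2 fun jk : Fin n × Option ρ =>
          eventually_small (hg₁ jk.2 (P jk.1)) ((hP jk.1).2.2.2.2 jk.2).1).and <|
        (eventually_all.2 fun jk : Fin n × Option ρ =>
          eventually_small (hg₂ jk.2 (P jk.1)) ((hP jk.1).2.2.2.2 jk.2).2).and <|
        eventually_all.2 fun i => eventually_cross x hT (u i)
          (∑ j, ((P j).pinch x (u i) - T (u i)))).exists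
    refine ⟨Fin.snoc P Q, fun j => ?_, fun j l k => ?_, fun i => ?_⟩
    · induction j using Fin.lastCases with
      | last =>
        rw [Fin.snoc_last]
        exact ⟨hQ0, hQc, hQd, hQt, hQ12⟩
      | cast j => rw [Fin.snoc_castSucc]; exact hP j
    · induction j using Fin.lastCases with
      | last =>
        induction l using Fin.lastCases with
        | last => rw [Fin.snoc_last]; exact hQ3 k
        | cast l => rw [Fin.snoc_last, Fin.snoc_castSucc]; exact hQr (l, k)
      | cast j =>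
        induction l using Fin.lastCases with
        | last => rw [Fin.snoc_last, Fin.snoc_castSucc]; exact hQl (j, k)
        | cast l => rw [Fin.snoc_castSucc, Fin.snoc_castSucc]; exact hpair j l k
    · rw [Fin.sum_univ_castSucc]
      simp only [Fin.snoc_castSucc, Fin.snoc_last]
      rw [norm_add_sq (𝕜 := ℂ)]
      have h5 : ‖Q.pinch x (u i) - T (u i)‖ ^ 2 ≤ (2 * ‖x‖ * ‖u i‖) ^ 2 := by
        refine pow_le_pow_left₀ (norm_nonneg _) ((norm_sub_le _ _).trans ?_) 2
        have a := ((Q.pinch x).le_opNorm (u i)).trans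
          (mul_le_mul_of_nonneg_right (Q.norm_pinch_le x) (norm_nonneg _))
        have b := (T.le_opNorm (u i)).trans (mul_le_mul_of_nonneg_right hTn (norm_nonneg _))
        linarith
      push_cast
      linarith [hQx i, hav i]

end Vale.Agent.P078.Sing
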