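import Vale.Agent.P078.Sing.Glue.Corner

/-!
# Supports of normal central functionals, and exhaustion
-/

open scoped ComplexOrder InnerProductSpace
open Vale.Agent.P078.Tr (cut hinge)

noncomputable section

namespace Vale.Agent.P078.Sing

universe u

variable {H : Type u} [NormedAddCommGroup H] [InnerProductSpace ℂ H] [CompleteSpace H]
  {S : Masa H}

lemma mul_eq_of_mul_eq {p q : Op H} (hp : IsStarProjection p) (hq : IsStarProjection q)
    (h : q * p = p) : p * q = p := by
  have := congrArg star h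
  rwa [star_mul, hp.isSelfAdjoint.star_eq, hq.isSelfAdjoint.star_eq] at this

/-- Cuts decrease. -/
lemma cut_mul_cut {h : Op H} (hs : IsSelfAdjoint h) {s t : ℝ} (hst : s ≤ t) :
    cut h s * cut h t = cut h t := by
  rcases eq_or_lt_of_le hst with rfl | hlt
  · exact (Tr.isStarProjection_cut h s).isIdempotentElem.eq
  have hcont : Continuous fun z : ℝ => max (z - t) 0 / max (z - s) (t - s) :=
    Continuous.div (by fun_prop) (by fun_prop) fun z =>
      (lt_max_of_lt_right (sub_pos.2 hlt)).ne'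
  have e : hinge h t =
      hinge h s * cfc (fun z : ℝ => max (z - t) 0 / max (z - s) (t - s)) h := by
    rw [hinge, hinge, ← cfc_mul (fun z : ℝ => max (z - s) 0) _ h (by fun_prop) hcont.continuousOn]
    refine cfc_congr fun z _ => ?_
    rcases le_total z t with hz | hz
    · simp [hz]
    · have h1 : 0 < z - s := by linarith
      rw [max_eq_left h1.le, max_eq_left (show t - s ≤ z - s by linarith),
        mul_div_cancel₀ _ h1.ne']
  have h0 : (1 - cut h s) * hinge h t = 0 := by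
    rw [e, ← mul_assoc, sub_mul, one_mul, Tr.cut_mul_hinge, sub_self, zero_mul]
  have h2 := Tr.mul_rangeProj_eq_zero h0
  rw [sub_mul, one_mul, sub_eq_zero] at h2
  exact h2.symm

/-- Least upper bounds of invariant sets lie in `A`. -/
lemma sup_mem_A (P : Set (Op H)) {s : Op H} (hsM : s ∈ S.M) (hs : IsStarProjection s)
    (hsp : ∀ p ∈ P, s * p = p) (hle : ∀ e : Op H, (∀ p ∈ P, e * p = p) → e * s = s)
    (hinv : ∀ e ∈ S.A, IsStarProjection e → ∀ p ∈ P,
      ((2 : ℂ) • e - 1) * p * ((2 : ℂ) • e - 1) ∈ P) : s ∈ S.A := by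
  refine S.mem_A_of_commute_proj hsM fun e he hep => ?_
  set u := (2 : ℂ) • e - 1 with hu
  have hus : star u = u := by
    rw [hu, star_sub, star_smul, star_one, hep.isSelfAdjoint.star_eq]
    simp
  have huu : u * u = 1 := by
    simp only [hu, sub_mul, mul_sub, smul_mul_assoc, mul_smul_comm, hep.isIdempotentElem.eq,
      one_mul, mul_one]
    module
  have h1 : u * s * u * s = s := hle _ fun p hp => by
    calc u * s * u * p = u * (s * (u * p * u)) * u := by simp only [mul_assoc, huu, mul_one]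
      _ = u * (u * p * u) * u := by rw [hsp _ (hinv e he hep p hp)]
      _ = p := by simp only [← mul_assoc, huu, one_mul]; rw [mul_assoc, huu, mul_one]
  have h2 : s * (u * s * u) = s := by
    have := congrArg star h1
    rwa [star_mul, star_mul, star_mul, hs.isSelfAdjoint.star_eq, hus,
      show s * (u * (s * u)) = s * (u * s * u) by simp only [mul_assoc]] at this
  have h3 : s * (u * s * u) = u * s * u := by
    calc s * (u * s * u) = u * (u * s * u * s) * u := by
          simp only [← mul_assoc, huu, one_mul]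
      _ = u * s * u := by rw [h1]
  have h4 : u * s = s * u := by
    conv_rhs => rw [← h2, h3, mul_assoc (u * s), huu, mul_one]
  have h5 : e = (2 : ℂ)⁻¹ • (u + 1) := by
    rw [hu, sub_add_cancel, smul_smul, inv_mul_cancel₀ (two_ne_zero : (2 : ℂ) ≠ 0), one_smul]
  rw [h5]
  exact ((show Commute u s from h4).add_left (Commute.one_left s)).smul_left _

namespace IsNormalCentral

variable {f : Op H →ₗ[ℂ] ℂ}

/-- A normal functional vanishes at a limit of projections where it vanishes. -/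
lemma sup_eq_zero (hf : IsNormalCentral S f) {P : Set (Op H)} {s : Op H} (hsM : s ∈ S.M)
    (hs : IsStarProjection s) (hP : ∀ p ∈ P, p ∈ S.M ∧ IsStarProjection p ∧ f p = 0)
    (hsp : ∀ p ∈ P, s * p = p)
    (happ : ∀ (F : Finset H) (δ : ℝ), 0 < δ → ∃ p ∈ P, ∀ v ∈ F, ‖(s - p) v‖ < δ) : f s = 0 := by
  refine norm_le_zero_iff.1 (le_of_forall_pos_le_add fun ε hε => ?_)
  obtain ⟨F, δ, hδ, hF⟩ := hf.normal ε hε
  obtain ⟨p, hp, hpv⟩ := happ F δ hδ
  obtain ⟨hpM, hpp, hp0⟩ := hP p hp
  have hd : IsStarProjection (s - p) :=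
    ⟨by
      show (s - p) * (s - p) = s - p
      rw [sub_mul, mul_sub, mul_sub, hs.isIdempotentElem.eq, hsp p hp,
        mul_eq_of_mul_eq hpp hs (hsp p hp), hpp.isIdempotentElem.eq]
      abel,
      hs.isSelfAdjoint.sub hpp.isSelfAdjoint⟩
  have := hF (s - p) (sub_mem hsM hpM) hd.norm_le hpv
  rwa [map_sub, hp0, sub_zero, ← zero_add ε] at this

/-- Cutting a normal central functional down by a projection of `A`. -/
lemma cutDown (hf : IsNormalCentral S f) {z : Op H} (hz : z ∈ S.A) (hzp : IsStarProjection z) :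
    ∃ g, IsNormalCentral S g ∧ ∀ y, g y = f (z * y * z) := by
  let g : Op H →ₗ[ℂ] ℂ :=
    { toFun := fun y => f (z * y * z)
      map_add' := fun y w => by rw [mul_add, add_mul, map_add]
      map_smul' := fun t y => by rw [mul_smul_comm, smul_mul_assoc, map_smul]; rfl }
  refine ⟨g, ⟨fun y hy => ?_, fun a ha y hy => ?_, fun ε hε => ?_⟩, fun y => rfl⟩
  · show 0 ≤ f (z * (star y * y) * z)
    rw [show z * (star y * y) * z = star (y * z) * (y * z) by
      rw [star_mul, hzp.isSelfAdjoint.star_eq]; simp only [mul_assoc]]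
    exact hf.pos _ (mul_mem hy (S.le z hz))
  · show f (z * (a * y) * z) = f (z * (y * a) * z)
    rw [show z * (a * y) * z = a * (z * y * z) by
        rw [← mul_assoc z a, S.comm z hz a ha]; simp only [mul_assoc],
      show z * (y * a) * z = z * y * z * a by
        rw [mul_assoc z (y * a), mul_assoc y a z, S.comm a ha z hz]; simp only [mul_assoc]]
    exact hf.central a ha _ (mul_mem (mul_mem (S.le z hz) hy) (S.le z hz))
  · classical
    obtain ⟨F, δ, hδ, hF⟩ := hf.normal ε hε
    refine ⟨F.image z, δ, hδ, fun y hy h1 hv =>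
      hF _ (mul_mem (mul_mem (S.le z hz) hy) (S.le z hz)) ?_ fun v hv' => ?_⟩
    · exact (norm_mul_le _ _).trans ((mul_le_of_le_one_right (norm_nonneg _) hzp.norm_le).trans
        ((norm_mul_le _ _).trans ((mul_le_of_le_one_left (norm_nonneg _) hzp.norm_le).trans h1)))
    · rw [mul_apply_eq_comp, mul_apply_eq_comp]
      exact lt_of_le_of_lt ((z.le_opNorm _).trans (mul_le_of_le_one_left (norm_nonneg _) hzp.norm_le))
        (hv _ (Finset.mem_image_of_mem _ hv'))

/-- The support of a normal central functional lies in `A`. -/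
theorem exists_support (hf : IsNormalCentral S f) :
    ∃ e ∈ S.A, IsStarProjection e ∧
      (∀ y ∈ S.M, y * e = y → f (star y * y) = 0 → y = 0) ∧
      (∀ k ∈ S.M, IsStarProjection k → f k = 0 → e * k = 0) ∧ (e = 0 → f 1 = 0) := by
  classical
  set P : Set (Op H) := {k | k ∈ S.M ∧ IsStarProjection k ∧ f k = 0}
  have hcut : ∀ h ∈ S.M, 0 ≤ h → f h = 0 → ∀ t : ℝ, 0 < t → cut h t ∈ P := by
    intro h hh h0 hfh t ht
    have hc := Tr.isStarProjection_cut h t
    refine ⟨S.cut_mem_M hh t, hc, hf.eq_zero_of_re (S.cut_mem_M hh t) hc.nonneg (le_antisymm ?_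
      (Complex.nonneg_iff.1 (hf.nonneg (S.cut_mem_M hh t) hc.nonneg)).1)⟩
    have := hf.re_mono (smul_mem_M t (S.cut_mem_M hh t)) hh (cut_le h0 ht.le)
    rw [← Complex.coe_smul, map_smul, smul_eq_mul, Complex.re_ofReal_mul, hfh, Complex.zero_re]
      at this
    nlinarith
  have hdir : ∀ k ∈ P, ∀ l ∈ P, ∃ m ∈ P, m * k = k ∧ m * l = l := by
    intro k hk l hl
    set h := k + l with hh
    have hhM : h ∈ S.M := add_mem hk.1 hl.1
    have h0 : 0 ≤ h := add_nonneg hk.2.1.nonneg hl.2.1.nonneg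
    set C : Set (Op H) := Set.range fun n : ℕ => cut h (1 / ((n : ℝ) + 1))
    have hpos : ∀ n : ℕ, (0 : ℝ) < 1 / ((n : ℝ) + 1) := fun n => by positivity
    have hCP : ∀ c ∈ C, c ∈ P := by
      rintro _ ⟨n, rfl⟩
      exact hcut h hhM h0 (by rw [hh, map_add, hk.2.2, hl.2.2, add_zero]) _ (hpos n)
    obtain ⟨s, hsM, hs, hsp, -, happ⟩ := exists_sup (S := S) C ⟨_, 0, rfl⟩
      (fun c hc => ⟨(hCP c hc).1, (hCP c hc).2.1⟩) (by
        rintro _ ⟨n, rfl⟩ _ ⟨n', rfl⟩
        exact ⟨_, ⟨max n n', rfl⟩, cut_mul_cut h0.isSelfAdjoint (by gcongr; exact_mod_cast le_max_left n n'),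
          cut_mul_cut h0.isSelfAdjoint (by gcongr; exact_mod_cast le_max_right n n')⟩)
    refine ⟨s, ⟨hsM, hs, hf.sup_eq_zero hsM hs hCP hsp happ⟩, ?_⟩
    have key : ∀ {p : Op H}, IsStarProjection p → p ≤ h → s * p = p := fun {p} hp hle => by
      have h1 : ∀ n : ℕ, ‖p * (1 - s)‖ ≤ Real.sqrt (1 / ((n : ℝ) + 1)) := fun n => by
        refine Real.le_sqrt_of_sq_le ?_
        set c := cut h (1 / ((n : ℝ) + 1))
        have e : p * (1 - s) = p * (1 - c) * (1 - s) := by
          rw [mul_assoc, sub_mul 1 c, one_mul, mul_sub c, mul_one,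
            mul_eq_of_mul_eq (hCP c ⟨n, rfl⟩).2.1 hs (hsp c ⟨n, rfl⟩), sub_self, sub_zero]
        have h2 : ‖p * (1 - c)‖ ^ 2 ≤ 1 / ((n : ℝ) + 1) := norm_mul_cut_compl h0
          (by rwa [hp.isSelfAdjoint.star_eq, hp.isIdempotentElem.eq]) (hpos n).le
        refine le_trans (pow_le_pow_left₀ (norm_nonneg _) ?_ 2) h2
        rw [e]
        exact (norm_mul_le _ _).trans (mul_le_of_le_one_right (norm_nonneg _) hs.one_sub.norm_le)
      have h2 : p * (1 - s) = 0 := norm_le_zero_iff.1 (ge_of_tendsto'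
        (by simpa using (tendsto_one_div_add_atTop_nhds_zero_nat (𝕜 := ℝ)).sqrt) h1)
      rw [mul_sub, mul_one, sub_eq_zero] at h2
      have h3 := congrArg star h2
      rw [star_mul, hp.isSelfAdjoint.star_eq, hs.isSelfAdjoint.star_eq] at h3
      exact h3.symm
    exact ⟨key hk.2.1 (le_add_of_nonneg_right hl.2.1.nonneg),
      key hl.2.1 (le_add_of_nonneg_left hk.2.1.nonneg)⟩
  obtain ⟨s, hsM, hs, hsp, hle, happ⟩ := exists_sup (S := S) P
    ⟨0, zero_mem _, IsStarProjection.zero _, map_zero f⟩ (fun k hk => ⟨hk.1, hk.2.1⟩) hdir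
  have hsA : s ∈ S.A := sup_mem_A P hsM hs hsp hle fun e he hep k hk => by
    set u := (2 : ℂ) • e - 1 with hu
    have huA : u ∈ S.A := sub_mem (S.A.smul_mem he _) (one_mem _)
    have hus : star u = u := by
      rw [hu, star_sub, star_smul, star_one, hep.isSelfAdjoint.star_eq]
      simp
    have huu : u * u = 1 := by
      simp only [hu, sub_mul, mul_sub, smul_mul_assoc, mul_smul_comm, hep.isIdempotentElem.eq,
        one_mul, mul_one]
      module
    have huM := S.le u huA
    refine ⟨mul_mem (mul_mem huM hk.1) huM, ⟨?_, ?_⟩, ?_⟩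
    · show u * k * u * (u * k * u) = u * k * u
      rw [show u * k * u * (u * k * u) = u * (k * ((u * u) * k)) * u by simp only [mul_assoc], huu,
        one_mul, hk.2.1.isIdempotentElem.eq]
    · rw [IsSelfAdjoint, star_mul, star_mul, hus, hk.2.1.isSelfAdjoint.star_eq, mul_assoc]
    · rw [mul_assoc, hf.central u huA _ (mul_mem hk.1 huM), mul_assoc, huu, mul_one, hk.2.2]
  have hs0 : f s = 0 := hf.sup_eq_zero hsM hs (fun p hp => hp) hsp happ
  refine ⟨1 - s, sub_mem (one_mem _) hsA, hs.one_sub, fun y hy hye h0 => ?_,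
    fun k hk hkp hk0 => ?_, fun h => ?_⟩
  · set h := star y * y
    have hh0 : 0 ≤ h := star_mul_self_nonneg y
    have hhM : h ∈ S.M := mul_mem (star_mem hy) hy
    refine norm_le_zero_iff.1 (ge_of_tendsto'
      (f := fun n : ℕ => Real.sqrt (1 / ((n : ℝ) + 1)))
      (by simpa using (tendsto_one_div_add_atTop_nhds_zero_nat (𝕜 := ℝ)).sqrt) fun n => ?_)
    set c := cut h (1 / ((n : ℝ) + 1))
    have hc : c ∈ P := hcut h hhM hh0 h0 _ (by positivity)
    have hyc : y * c = 0 := by
      rw [← hye, mul_assoc, sub_mul, one_mul, hsp c hc, sub_self, mul_zero]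
    refine Real.le_sqrt_of_sq_le ?_
    have h2 : ‖y * (1 - c)‖ ^ 2 ≤ 1 / ((n : ℝ) + 1) :=
      norm_mul_cut_compl hh0 le_rfl (by positivity)
    rwa [mul_sub, mul_one, hyc, sub_zero] at h2
  · rw [sub_mul, one_mul, hsp k ⟨hk, hkp, hk0⟩, sub_self]
  · rw [sub_eq_zero] at h
    rw [h, hs0]

end IsNormalCentral

/-- `f` is a normal central functional faithful on `e M e`. -/
def HasFaithful (S : Masa H) (e : Op H) : Prop :=
  ∃ f, IsNormalCentral S f ∧ ∀ y ∈ S.M, y * e = y → f (star y * y) = 0 → y = 0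

/-- Exhaustion: a remainder killed by every normal central functional, and finite joins of
supports filling the rest. -/
theorem exists_split (S : Masa H) :
    ∃ z ∈ S.A, IsStarProjection z ∧ (∀ f, IsNormalCentral S f → f z = 0) ∧
      ∀ (F : Finset H) (δ : ℝ), 0 < δ → ∃ e ∈ S.A, IsStarProjection e ∧ e * z = 0 ∧
        HasFaithful S e ∧ ∀ v ∈ F, ‖(1 - z - e) v‖ < δ := by
  classical
  set 𝒯 : Set (Set (Op H)) := {C | (∀ q ∈ C, q ∈ S.A ∧ IsStarProjection q ∧ HasFaithful S q) ∧
    C.Pairwise fun q q' => q * q' = 0}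
  obtain ⟨C, hC⟩ := zorn_subset 𝒯 fun c hc hchain =>
    ⟨⋃₀ c, ⟨fun q ⟨D, hD, hq⟩ => (hc hD).1 q hq, (Set.pairwise_sUnion hchain.directedOn).2
      fun D hD => (hc hD).2⟩, fun D hD => Set.subset_sUnion_of_mem hD⟩
  obtain ⟨hC1, hC2⟩ := hC.prop
  set P : Set (Op H) := (fun t : Finset C => ∑ q ∈ t, q.1) '' Set.univ
  have hsum : ∀ t : Finset C, IsStarProjection (∑ q ∈ t, q.1) ∧
      (∀ r ∈ C, (∀ q ∈ t, q.1 ≠ r) → (∑ q ∈ t, q.1) * r = 0) ∧
      ∀ q ∈ t, (∑ q ∈ t, q.1) * q.1 = q.1 := by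
    intro t
    induction t using Finset.induction_on with
    | empty => simp [IsStarProjection.zero]
    | @insert a t hat ih =>
      obtain ⟨h1, h2, h3⟩ := ih
      have hz : (∑ q ∈ t, q.1) * a.1 = 0 :=
        h2 a.1 a.2 fun q hq hqa => hat (Subtype.ext hqa ▸ hq)
      have hz' : a.1 * (∑ q ∈ t, q.1) = 0 := by
        rw [S.comm _ (hC1 _ a.2).1 _ (sum_mem fun q _ => (hC1 _ q.2).1), hz]
      rw [Finset.sum_insert hat]
      refine ⟨(hC1 _ a.2).2.1.add h1 hz', fun r hr hne => ?_, fun q hq => ?_⟩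
      · rw [add_mul, hC2 a.2 hr (hne a (Finset.mem_insert_self _ _)),
          h2 r hr fun q hq => hne q (Finset.mem_insert_of_mem hq), add_zero]
      · rcases Finset.mem_insert.1 hq with rfl | hq
        · rw [add_mul, (hC1 _ q.2).2.1.isIdempotentElem.eq, hz, add_zero]
        · rw [add_mul, hC2 a.2 q.2 (fun h => hat (Subtype.ext h ▸ hq)), h3 q hq, zero_add]
  have hPA : ∀ p ∈ P, p ∈ S.A := by
    rintro _ ⟨t, -, rfl⟩
    exact sum_mem fun q _ => (hC1 _ q.2).1
  have hPp : ∀ p ∈ P, p ∈ S.M ∧ IsStarProjection p := fun p hp =>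
    ⟨S.le p (hPA p hp), by obtain ⟨t, -, rfl⟩ := hp; exact (hsum t).1⟩
  have hsub : ∀ t t' : Finset C, t ⊆ t' → (∑ q ∈ t', q.1) * (∑ q ∈ t, q.1) = ∑ q ∈ t, q.1 := by
    intro t t' h
    rw [Finset.mul_sum]
    exact Finset.sum_congr rfl fun q hq => (hsum t').2.2 q (h hq)
  obtain ⟨s, hsM, hs, hsp, hle, happ⟩ := exists_sup (S := S) P ⟨_, ∅, trivial, rfl⟩ hPp (by
    rintro _ ⟨t, -, rfl⟩ _ ⟨t', -, rfl⟩
    exact ⟨_, ⟨t ∪ t', trivial, rfl⟩, hsub _ _ Finset.subset_union_left,
      hsub _ _ Finset.subset_union_right⟩)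
  have hsA : s ∈ S.A := sup_mem_A P hsM hs hsp hle fun e he hep p hp => by
    set u := (2 : ℂ) • e - 1 with hu
    have huu : u * u = 1 := by
      simp only [hu, sub_mul, mul_sub, smul_mul_assoc, mul_smul_comm, hep.isIdempotentElem.eq,
        one_mul, mul_one]
      module
    rwa [S.comm u (sub_mem (S.A.smul_mem he _) (one_mem _)) p (hPA p hp), mul_assoc, huu, mul_one]
  refine ⟨1 - s, sub_mem (one_mem _) hsA, hs.one_sub, fun f hf => ?_, fun F δ hδ => ?_⟩
  · by_contra hne
    obtain ⟨g, hg, hgf⟩ := hf.cutDown (sub_mem (one_mem _) hsA) hs.one_sub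
    obtain ⟨e, heA, hep, hef, hek, he0⟩ := hg.exists_support
    have hes : e * s = 0 := hek s hsM hs (by
      rw [hgf, sub_mul 1 s s, one_mul, hs.isIdempotentElem.eq, sub_self, zero_mul, map_zero])
    have hzero : e ≠ 0 := fun h => hne (by
      have := he0 h
      rwa [hgf, mul_one, hs.one_sub.isIdempotentElem.eq] at this)
    have hz : ∀ r ∈ C, e * r = 0 ∧ r * e = 0 := fun r hr => by
      have h : e * r = 0 := by
        rw [← hsp r ⟨{⟨r, hr⟩}, trivial, by simp⟩, ← mul_assoc, hes, zero_mul]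
      exact ⟨h, by rw [S.comm r (hC1 r hr).1 e heA, h]⟩
    have hins : insert e C ∈ 𝒯 := ⟨fun r hr => by
        rcases hr with rfl | hr
        · exact ⟨heA, hep, g, hg, hef⟩
        · exact hC1 r hr,
      hC2.insert fun r hr _ => hz r hr⟩
    have heC : e ∈ C := hC.le_of_ge hins (Set.subset_insert _ _) (Set.mem_insert _ _)
    exact hzero (by rw [← hep.isIdempotentElem.eq]; exact (hz e heC).1)
  · obtain ⟨p, hp, hpv⟩ := happ F δ hδ
    refine ⟨p, hPA p hp, (hPp p hp).2, ?_, ?_, fun v hv => by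
      rw [sub_sub_cancel]; exact hpv v hv⟩
    · rw [mul_sub, mul_one, mul_eq_of_mul_eq (hPp p hp).2 hs (hsp p hp), sub_self]
    · obtain ⟨t, -, rfl⟩ := hp
      choose fq hfq hfaith using fun q : C => (hC1 q.1 q.2).2.2
      choose g hg hge using fun q : C => (hfq q).cutDown (hC1 q.1 q.2).1 (hC1 q.1 q.2).2.1
      have hG : ∀ y, (∑ q ∈ t, g q) y = ∑ q ∈ t, g q y := fun y => LinearMap.sum_apply _ _ _
      refine ⟨∑ q ∈ t, g q, ⟨fun y hy => ?_, fun a ha y hy => ?_, fun ε hε => ?_⟩,
        fun y hy hye h0 => ?_⟩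
      · rw [hG]; exact Finset.sum_nonneg fun q _ => (hg q).pos y hy
      · rw [hG, hG]; exact Finset.sum_congr rfl fun q _ => (hg q).central a ha y hy
      · have hεt : 0 < ε / ((t.card : ℝ) + 1) := by positivity
        choose Fq δq hδq hFq using fun q => (hg q).normal _ hεt
        refine ⟨t.biUnion Fq, (insert (1 : ℝ) (t.image δq)).min' (Finset.insert_nonempty _ _),
          ?_, fun y hy h1 hv => ?_⟩
        · rw [Finset.lt_min'_iff]
          simp only [Finset.mem_insert, Finset.mem_image]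
          rintro x (rfl | ⟨q, -, rfl⟩)
          · exact one_pos
          · exact hδq q
        · rw [hG]
          refine (norm_sum_le _ _).trans ((Finset.sum_le_card_nsmul _ _ _ fun q hq =>
            hFq q y hy h1 fun v hv' => lt_of_lt_of_le (hv v (Finset.mem_biUnion.2 ⟨q, hq, hv'⟩))
              (Finset.min'_le _ _ (Finset.mem_insert_of_mem (Finset.mem_image_of_mem _ hq)))).trans ?_)
          rw [nsmul_eq_mul, mul_div_assoc', div_le_iff₀ (by positivity)]
          nlinarith
      · rw [hG, Finset.sum_eq_zero_iff_of_nonneg fun q _ => (hg q).pos y hy] at h0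
        rw [← hye, Finset.mul_sum]
        refine Finset.sum_eq_zero fun q hq => hfaith q _ (mul_mem hy (S.le _ (hC1 q.1 q.2).1)) ?_ ?_
        · rw [mul_assoc, (hC1 q.1 q.2).2.1.isIdempotentElem.eq]
        · rw [← h0 q hq, hge, star_mul, (hC1 q.1 q.2).2.1.isSelfAdjoint.star_eq]
          simp only [mul_assoc]

end Vale.Agent.P078.Sing
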